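import Mathlib

/-!
# The algebraic design and the middle-digit gap for the Heilbronn construction
-/

set_option autoImplicit false

namespace Crest.Agent.Heil
open Finset

/-- `f` is a sum of `r` products of a function of `x` and a function of `y`. -/
def HasRank {S K : Type} [CommRing K] (r : ℕ) (f : S → S → K) : Prop :=
  ∃ (ι : Type) (_ : Fintype ι) (u v : ι → S → K), Fintype.card ι = r ∧
    ∀ x y, f x y = ∑ i, u i x * v i y

section
variable {S K : Type} [CommRing K]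

lemma HasRank.add {r s : ℕ} {f g : S → S → K} (hf : HasRank r f) (hg : HasRank s g) :
    HasRank (r + s) fun x y => f x y + g x y := by
  obtain ⟨ι, _, u, v, hc, h⟩ := hf
  obtain ⟨κ, _, u', v', hc', h'⟩ := hg
  refine ⟨ι ⊕ κ, inferInstance, Sum.elim u u', Sum.elim v v', by simp [hc, hc'], fun x y => ?_⟩
  simp [Fintype.sum_sum_type, h, h']

lemma HasRank.mul {r s : ℕ} {f g : S → S → K} (hf : HasRank r f) (hg : HasRank s g) :
    HasRank (r * s) fun x y => f x y * g x y := by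
  obtain ⟨ι, _, u, v, hc, h⟩ := hf
  obtain ⟨κ, _, u', v', hc', h'⟩ := hg
  refine ⟨ι × κ, inferInstance, fun i x => u i.1 x * u' i.2 x, fun i x => v i.1 x * v' i.2 x,
    by simp [hc, hc'], fun x y => ?_⟩
  dsimp only
  rw [h, h', Finset.sum_mul_sum, Fintype.sum_prod_type]
  exact Finset.sum_congr rfl fun i _ => Finset.sum_congr rfl fun j _ => by ring

lemma hasRank_zero : HasRank 0 fun (_ _ : S) => (0 : K) :=
  ⟨Empty, inferInstance, fun _ _ => 0, fun _ _ => 0, by simp, by simp⟩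

lemma hasRank_const (c : K) : HasRank 1 fun (_ _ : S) => c :=
  ⟨Unit, inferInstance, fun _ _ => c, fun _ _ => 1, by simp, by simp⟩

lemma hasRank_sub (a : S → K) : HasRank 2 fun x y => a x - a y :=
  ⟨Bool, inferInstance, fun b x => if b then a x else -1, fun b y => if b then 1 else a y,
    by simp, fun x y => by simp [sub_eq_add_neg]⟩

lemma hasRank_sum {α : Type} (s : Finset α) {r : ℕ} (f : α → S → S → K)
    (h : ∀ i ∈ s, HasRank r (f i)) : HasRank (s.card * r) fun x y => ∑ i ∈ s, f i x y := by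
  classical
  induction s using Finset.induction_on with
  | empty => simpa using hasRank_zero
  | insert a s ha ih =>
    have := (h a (mem_insert_self _ _)).add (ih fun i hi => h i (mem_insert_of_mem hi))
    simp only [Finset.sum_insert ha, Finset.card_insert_of_notMem ha]
    convert this using 1
    ring

lemma hasRank_prod {α : Type} (s : Finset α) {r : ℕ} (f : α → S → S → K)
    (h : ∀ i ∈ s, HasRank r (f i)) : HasRank (r ^ s.card) fun x y => ∏ i ∈ s, f i x y := by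
  classical
  induction s using Finset.induction_on with
  | empty => simpa using hasRank_const (S := S) (1 : K)
  | insert a s ha ih =>
    have := (h a (mem_insert_self _ _)).mul (ih fun i hi => h i (mem_insert_of_mem hi))
    simp only [Finset.prod_insert ha, Finset.card_insert_of_notMem ha]
    convert this using 1
    ring

lemma hasRank_det (n : ℕ) (M : S → Matrix (Fin n) (Fin n) K) :
    HasRank (n.factorial * 2 ^ n) fun x y => (M x - M y).det := by
  have h := hasRank_sum (Finset.univ : Finset (Equiv.Perm (Fin n))) (r := 1 * 2 ^ n)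
    (fun σ x y => ((Equiv.Perm.sign σ : ℤ) : K) * ∏ i, (M x (σ i) i - M y (σ i) i))
    (fun σ _ => (hasRank_const _).mul (by
      have := hasRank_prod (Finset.univ : Finset (Fin n)) (r := 2)
        (fun i x y => M x (σ i) i - M y (σ i) i) fun i _ => hasRank_sub fun x => M x (σ i) i
      simpa using this))
  simp only [Finset.card_univ, Fintype.card_perm, Fintype.card_fin, one_mul] at h
  convert h using 3
  rw [Matrix.det_apply']
  simp

lemma sum_cross {ι : Type} [Fintype ι] (u v : ι → S → K) (g : S → S → K)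
    (hg : ∀ x y, g x y = ∑ i, u i x * v i y) (ha : ∀ x y, g y x = -g x y) (x y z : S) :
    ∑ k, ((u k x - u k z) * (v k y - v k z) - (u k y - u k z) * (v k x - v k z)) =
      2 * (g x y + g y z + g z x) := by
  have : ∑ k, ((u k x - u k z) * (v k y - v k z) - (u k y - u k z) * (v k x - v k z)) =
      g x y - g x z - g z y - g y x + g y z + g z x := by
    simp only [hg, ← Finset.sum_sub_distrib, ← Finset.sum_add_distrib]
    exact Finset.sum_congr rfl fun i _ => by ring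
  rw [this, ha z x, ha y z, ha x y]
  ring

end

lemma cross_abs_le {a b c d e f B : ℤ} (ha : 0 ≤ a ∧ a < B) (hb : 0 ≤ b ∧ b < B)
    (hc : 0 ≤ c ∧ c < B) (hd : 0 ≤ d ∧ d < B) (he : 0 ≤ e ∧ e < B) (hf : 0 ≤ f ∧ f < B) :
    |(a - c) * (e - f) - (b - c) * (d - f)| ≤ 2 * B ^ 2 := by
  have h1 : |a - c| ≤ B := abs_le.2 ⟨by linarith [ha.1, hc.2], by linarith [ha.2, hc.1]⟩
  have h2 : |e - f| ≤ B := abs_le.2 ⟨by linarith [he.1, hf.2], by linarith [he.2, hf.1]⟩
  have h3 : |b - c| ≤ B := abs_le.2 ⟨by linarith [hb.1, hc.2], by linarith [hb.2, hc.1]⟩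
  have h4 : |d - f| ≤ B := abs_le.2 ⟨by linarith [hd.1, hf.2], by linarith [hd.2, hf.1]⟩
  have hB : 0 ≤ B := (abs_nonneg _).trans h1
  calc _ ≤ |(a - c) * (e - f)| + |(b - c) * (d - f)| := abs_sub _ _
    _ ≤ B * B + B * B := by
      rw [abs_mul, abs_mul]
      exact add_le_add (mul_le_mul h1 h2 (abs_nonneg _) hB) (mul_le_mul h3 h4 (abs_nonneg _) hB)
    _ = _ := by ring

theorem design : ∃ R C : ℕ, 0 < R ∧ 0 < C ∧ ∀ p : ℕ, p.Prime → 5 ≤ p →
    ∃ U V : Fin R → Fin (p ^ 11) → ℤ,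
      (∀ k x, 0 ≤ U k x ∧ U k x < (C * p ^ 3 : ℕ)) ∧ (∀ k x, 0 ≤ V k x ∧ V k x < (C * p ^ 3 : ℕ)) ∧
      ∀ x y z, x ≠ y → x ≠ z → y ≠ z →
        ∑ k, ((U k x - U k z) * (V k y - V k z) - (U k y - U k z) * (V k x - V k z)) ≠ 0 := by
  obtain ⟨r, hr⟩ : ∃ r : ℕ, r = Nat.factorial 11 * 2 ^ 11 := ⟨_, rfl⟩
  have hr0 : 0 < r := by rw [hr]; positivity
  refine ⟨r + r * r * r, 2 * r + 1, by positivity, by positivity, fun p hp h5 => ?_⟩
  have : Fact p.Prime := ⟨hp⟩
  have : NeZero p := ⟨hp.ne_zero⟩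
  let F := GaloisField p 11
  have : Fintype F := Fintype.ofFinite F
  have hcard : Fintype.card F = p ^ 11 := by
    rw [← Nat.card_eq_fintype_card]; exact GaloisField.card p 11 (by norm_num)
  let e : F ≃ Fin (p ^ 11) := Fintype.equivFinOfCardEq hcard
  let b := Module.finBasisOfFinrankEq (ZMod p) F (GaloisField.finrank p (n := 11) (by norm_num))
  let g : F → F → ZMod p := fun x y => Algebra.norm (ZMod p) (x - y)
  have hgd : ∀ x y, g x y = (Algebra.leftMulMatrix b x - Algebra.leftMulMatrix b y).det := by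
    intro x y
    simp only [g, Algebra.norm_eq_matrix_det b, map_sub]
  have hga : ∀ x y, g y x = -g x y := by
    intro x y
    rw [hgd, hgd, ← neg_sub, Matrix.det_neg]
    simp only [Fintype.card_fin]
    norm_num
  have hg0 : ∀ x y, x ≠ y → g x y ≠ 0 := fun x y hxy h =>
    hxy (sub_eq_zero.1 (Algebra.norm_eq_zero_iff.1 h))
  have hR1 : HasRank r g := by
    have := hasRank_det 11 fun x : F => Algebra.leftMulMatrix b x
    rw [← hr] at this
    convert this using 3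
    exact hgd _ _
  obtain ⟨κ, _, u', v', hc', h'⟩ := (hR1.mul hR1).mul hR1
  obtain ⟨ι, _, u, v, hc, h⟩ := hR1
  let ε : ι ⊕ κ ≃ Fin (r + r * r * r) := Fintype.equivFinOfCardEq (by simp [hc, hc'])
  obtain ⟨W, hW⟩ : ∃ W : ℤ, W = 2 * r * (p : ℤ) ^ 2 + 1 := ⟨_, rfl⟩
  have hp1 : (1 : ℤ) ≤ p := by exact_mod_cast hp.one_lt.le
  have hW0 : 0 < W := by rw [hW]; positivity
  have hval : ∀ a : ZMod p, (0 : ℤ) ≤ (a.val : ℤ) ∧ (a.val : ℤ) < p := fun a =>
    ⟨Int.natCast_nonneg _, by exact_mod_cast ZMod.val_lt a⟩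
  have hpC : (p : ℤ) ≤ ((2 * r + 1) * p ^ 3 : ℕ) := by
    push_cast
    have : (p : ℤ) ≤ p ^ 3 := le_self_pow₀ hp1 (by norm_num)
    nlinarith [Int.natCast_nonneg r, pow_pos (zero_lt_one.trans_le hp1) 3]
  have hWC : W * p ≤ ((2 * r + 1) * p ^ 3 : ℕ) := by
    push_cast
    have : (p : ℤ) ≤ p ^ 3 := le_self_pow₀ hp1 (by norm_num)
    rw [hW]; nlinarith
  refine ⟨fun k x => Sum.elim (fun i => ((u i (e.symm x)).val : ℤ))
      (fun i => ((u' i (e.symm x)).val : ℤ)) (ε.symm k),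
    fun k x => Sum.elim (fun i => ((v i (e.symm x)).val : ℤ))
      (fun i => W * ((v' i (e.symm x)).val : ℤ)) (ε.symm k), ?_, ?_, ?_⟩
  · intro k x
    dsimp only
    rcases ε.symm k with i | i
    · exact ⟨(hval _).1, (hval _).2.trans_le hpC⟩
    · exact ⟨(hval _).1, (hval _).2.trans_le hpC⟩
  · intro k x
    dsimp only
    rcases ε.symm k with i | i
    · exact ⟨(hval _).1, (hval _).2.trans_le hpC⟩
    · exact ⟨mul_nonneg hW0.le (hval _).1,
        (mul_lt_mul_of_pos_left (hval _).2 hW0).trans_le hWC⟩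
  · intro x y z hxy hxz hyz
    set X := e.symm x
    set Y := e.symm y
    set Z := e.symm z
    have hXY : X ≠ Y := e.symm.injective.ne hxy
    have hXZ : X ≠ Z := e.symm.injective.ne hxz
    have hYZ : Y ≠ Z := e.symm.injective.ne hyz
    rw [← ε.sum_comp]
    simp only [Equiv.symm_apply_apply, Fintype.sum_sum_type, Sum.elim_inl, Sum.elim_inr]
    set D1 : ℤ := ∑ i, ((((u i X).val : ℤ) - (u i Z).val) * (((v i Y).val : ℤ) - (v i Z).val) -
      (((u i Y).val : ℤ) - (u i Z).val) * (((v i X).val : ℤ) - (v i Z).val)) with hD1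
    set D2 : ℤ := ∑ i, ((((u' i X).val : ℤ) - (u' i Z).val) *
      (((v' i Y).val : ℤ) - (v' i Z).val) -
      (((u' i Y).val : ℤ) - (u' i Z).val) * (((v' i X).val : ℤ) - (v' i Z).val)) with hD2
    have e2 : ∑ i, ((((u' i X).val : ℤ) - (u' i Z).val) *
        (W * ((v' i Y).val : ℤ) - W * (v' i Z).val) -
        (((u' i Y).val : ℤ) - (u' i Z).val) * (W * ((v' i X).val : ℤ) - W * (v' i Z).val)) =
        W * D2 := by
      rw [hD2, Finset.mul_sum]
      exact Finset.sum_congr rfl fun i _ => by ring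
    rw [e2]
    intro h0
    have hD1b : |D1| < W := by
      have : |D1| ≤ ∑ _i : ι, 2 * (p : ℤ) ^ 2 := (Finset.abs_sum_le_sum_abs _ _).trans
        (Finset.sum_le_sum fun i _ => cross_abs_le (hval _) (hval _) (hval _) (hval _) (hval _)
          (hval _))
      rw [Finset.sum_const, Finset.card_univ, hc, nsmul_eq_mul] at this
      rw [hW]; linarith
    have hD10 : D1 = 0 := Int.eq_zero_of_abs_lt_dvd ⟨-D2, by linarith⟩ hD1b
    have hD20 : D2 = 0 := by
      rw [hD10, zero_add] at h0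
      exact (mul_eq_zero.1 h0).resolve_left hW0.ne'
    have c1 : (D1 : ZMod p) = 2 * (g X Y + g Y Z + g Z X) := by
      rw [← sum_cross u v g h hga X Y Z, hD1]
      push_cast
      simp
    have c2 : (D2 : ZMod p) = 2 * (g X Y * g X Y * g X Y + g Y Z * g Y Z * g Y Z +
        g Z X * g Z X * g Z X) := by
      rw [← sum_cross u' v' (fun x y => g x y * g x y * g x y) h'
        (fun x y => by rw [hga x y]; ring) X Y Z, hD2]
      push_cast
      simp
    rw [hD10, Int.cast_zero] at c1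
    rw [hD20, Int.cast_zero] at c2
    have hne : ∀ m : ℕ, 0 < m → m < 5 → (m : ZMod p) ≠ 0 := fun m h1 h2 h3 => by
      have := Nat.le_of_dvd h1 ((ZMod.natCast_eq_zero_iff m p).1 h3)
      omega
    have h2 : (2 : ZMod p) ≠ 0 := by exact_mod_cast hne 2 (by norm_num) (by norm_num)
    have h3 : (3 : ZMod p) ≠ 0 := by exact_mod_cast hne 3 (by norm_num) (by norm_num)
    have c1' := (mul_eq_zero.1 c1.symm).resolve_left h2
    have c2' := (mul_eq_zero.1 c2.symm).resolve_left h2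
    have : 3 * (g X Y * g Y Z * g Z X) = 0 := by
      have hc : g Z X = -(g X Y + g Y Z) := by linear_combination c1'
      rw [hc] at c2' ⊢
      linear_combination c2'
    exact mul_ne_zero h3 (mul_ne_zero (mul_ne_zero (hg0 _ _ hXY) (hg0 _ _ hYZ))
      (hg0 _ _ hXZ.symm)) this

theorem mid_gap {S : Type} (R B H : ℕ) (hR : 0 < R) (hB : 0 < B) (U V : Fin R → S → ℤ)
    (hU : ∀ k x, 0 ≤ U k x ∧ U k x < B) (hV : ∀ k x, 0 ≤ V k x ∧ V k x < B)
    (hH : 16 * R ^ 2 * B ^ 2 ≤ H)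
    (hne : ∀ x y z, x ≠ y → x ≠ z → y ≠ z →
        ∑ k, ((U k x - U k z) * (V k y - V k z) - (U k y - U k z) * (V k x - V k z)) ≠ 0) :
    ∃ X Y : S → ℤ, (∀ x, 0 ≤ X x ∧ X x < (H : ℤ) ^ (R + 1) ∧ 0 ≤ Y x ∧ Y x < (H : ℤ) ^ (R + 1)) ∧
      ∀ x y z, x ≠ y → x ≠ z → y ≠ z → ∀ t : ℤ,
        (H : ℤ) ^ (R + 1) ∣ t - ((X x - X z) * (Y y - Y z) - (Y x - Y z) * (X y - X z)) →
        (H : ℤ) ^ R ≤ 2 * |t| := by
  have hH' : 16 * (R : ℤ) ^ 2 * (B : ℤ) ^ 2 ≤ H := by exact_mod_cast hH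
  have hR' : (1 : ℤ) ≤ R := by exact_mod_cast hR
  have hB' : (1 : ℤ) ≤ B := by exact_mod_cast hB
  have hRB : (1 : ℤ) ≤ R * B := by nlinarith
  have hRBH : (R : ℤ) * B < H := by nlinarith
  have hH1 : (1 : ℤ) ≤ H := by linarith
  have hbd : ∀ (W : Fin R → ℤ) (m : Fin R → ℕ), (∀ k, 0 ≤ W k ∧ W k < B) → (∀ k, m k ≤ R) →
      0 ≤ ∑ k, W k * (H : ℤ) ^ m k ∧ ∑ k, W k * (H : ℤ) ^ m k < (H : ℤ) ^ (R + 1) := by
    intro W m hW hm
    refine ⟨Finset.sum_nonneg fun k _ => mul_nonneg (hW k).1 (by positivity), ?_⟩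
    have : ∑ k, W k * (H : ℤ) ^ m k ≤ ∑ _k : Fin R, (B : ℤ) * (H : ℤ) ^ R :=
      Finset.sum_le_sum fun k _ => mul_le_mul (hW k).2.le (pow_le_pow_right₀ hH1 (hm k))
        (by positivity) (by positivity)
    rw [Finset.sum_const, Finset.card_univ, Fintype.card_fin, nsmul_eq_mul] at this
    refine this.trans_lt ?_
    rw [← mul_assoc, pow_succ']
    exact mul_lt_mul_of_pos_right hRBH (by positivity)
  refine ⟨fun x => ∑ k, U k x * (H : ℤ) ^ (k : ℕ), fun x => ∑ k, V k x * (H : ℤ) ^ (R - k),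
    fun x => ⟨(hbd _ _ (fun k => hU k x) fun k => k.2.le).1,
      (hbd _ _ (fun k => hU k x) fun k => k.2.le).2,
      (hbd _ _ (fun k => hV k x) fun k => Nat.sub_le _ _).1,
      (hbd _ _ (fun k => hV k x) fun k => Nat.sub_le _ _).2⟩, ?_⟩
  intro x y z hxy hxz hyz t ht
  set d : Fin R → Fin R → ℤ := fun k k' =>
    (U k x - U k z) * (V k' y - V k' z) - (U k y - U k z) * (V k' x - V k' z) with hd
  have hdb : ∀ k k', |d k k'| ≤ 2 * (B : ℤ) ^ 2 := fun k k' =>
    cross_abs_le (hU _ _) (hU _ _) (hU _ _) (hV _ _) (hV _ _) (hV _ _)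
  set E : ℤ := ∑ k, ∑ k', if k < k' then d k k' * (H : ℤ) ^ ((k : ℕ) + (R - k')) else 0 with hE
  set D : ℤ := ∑ k, d k k with hD
  set Z : ℤ := ∑ k, ∑ k', if k' < k then d k k' * (H : ℤ) ^ ((k : ℕ) - k' - 1) else 0 with hZ
  have hdet : ((∑ k, U k x * (H : ℤ) ^ (k : ℕ)) - ∑ k, U k z * (H : ℤ) ^ (k : ℕ)) *
      ((∑ k, V k y * (H : ℤ) ^ (R - k)) - ∑ k, V k z * (H : ℤ) ^ (R - k)) -
      ((∑ k, V k x * (H : ℤ) ^ (R - k)) - ∑ k, V k z * (H : ℤ) ^ (R - k)) *
      ((∑ k, U k y * (H : ℤ) ^ (k : ℕ)) - ∑ k, U k z * (H : ℤ) ^ (k : ℕ)) =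
      E + (H : ℤ) ^ R * D + (H : ℤ) ^ (R + 1) * Z := by
    have h1 : ((∑ k, U k x * (H : ℤ) ^ (k : ℕ)) - ∑ k, U k z * (H : ℤ) ^ (k : ℕ)) *
        ((∑ k, V k y * (H : ℤ) ^ (R - k)) - ∑ k, V k z * (H : ℤ) ^ (R - k)) -
        ((∑ k, V k x * (H : ℤ) ^ (R - k)) - ∑ k, V k z * (H : ℤ) ^ (R - k)) *
        ((∑ k, U k y * (H : ℤ) ^ (k : ℕ)) - ∑ k, U k z * (H : ℤ) ^ (k : ℕ)) =
        ∑ k, ∑ k', d k k' * (H : ℤ) ^ ((k : ℕ) + (R - k')) := by
      rw [mul_comm ((∑ k, V k x * (H : ℤ) ^ (R - k)) - _)]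
      simp only [← Finset.sum_sub_distrib, Finset.sum_mul_sum]
      refine Finset.sum_congr rfl fun k _ => Finset.sum_congr rfl fun k' _ => ?_
      simp only [hd, pow_add]; ring
    have h2 : D = ∑ k, ∑ k', if k = k' then d k k' else 0 := by
      simp [hD]
    rw [h1, hE, h2, hZ]
    simp only [Finset.mul_sum, ← Finset.sum_add_distrib]
    refine Finset.sum_congr rfl fun k _ => Finset.sum_congr rfl fun k' _ => ?_
    rcases lt_trichotomy k k' with h | h | h
    · simp [h, h.ne, h.not_gt]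
    · subst h
      have : (k : ℕ) + (R - k) = R := by have := k.2; omega
      simp [this, mul_comm]
    · have h' : (k' : ℕ) < k := h
      have : (k : ℕ) + (R - k') = (R + 1) + ((k : ℕ) - k' - 1) := by have := k.2; omega
      rw [if_neg h.not_gt, if_neg h.ne', if_pos h, this, pow_add]
      ring
  have hEb : 8 * |E| ≤ (H : ℤ) ^ R := by
    have h1 : |E| ≤ ∑ _k : Fin R, ∑ _k' : Fin R, 2 * (B : ℤ) ^ 2 * (H : ℤ) ^ (R - 1) := by
      refine (Finset.abs_sum_le_sum_abs _ _).trans (Finset.sum_le_sum fun k _ =>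
        (Finset.abs_sum_le_sum_abs _ _).trans (Finset.sum_le_sum fun k' _ => ?_))
      split_ifs with h
      · have h' : (k : ℕ) < k' := h
        rw [abs_mul, abs_of_nonneg (by positivity : (0 : ℤ) ≤ (H : ℤ) ^ ((k : ℕ) + (R - k')))]
        exact mul_le_mul (hdb _ _) (pow_le_pow_right₀ hH1 (by have := k'.2; omega))
          (by positivity) (by positivity)
      · rw [abs_zero]; positivity
    simp only [Finset.sum_const, Finset.card_univ, Fintype.card_fin, nsmul_eq_mul] at h1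
    have h2 : (H : ℤ) ^ R = H * (H : ℤ) ^ (R - 1) := by
      rw [← pow_succ']; congr 1; omega
    have h3 := mul_le_mul_of_nonneg_right hH' (by positivity : (0 : ℤ) ≤ (H : ℤ) ^ (R - 1))
    rw [h2]; nlinarith
  have hDb : |D| < H := by
    have h1 : |D| ≤ ∑ _k : Fin R, 2 * (B : ℤ) ^ 2 :=
      (Finset.abs_sum_le_sum_abs _ _).trans (Finset.sum_le_sum fun k _ => hdb _ _)
    rw [Finset.sum_const, Finset.card_univ, Fintype.card_fin, nsmul_eq_mul] at h1
    have : (0 : ℤ) < (B : ℤ) ^ 2 := by positivity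
    nlinarith
  have hD0 : D ≠ 0 := hne x y z hxy hxz hyz
  dsimp only at ht
  rw [hdet] at ht
  obtain ⟨m, hm⟩ := ht
  have ht' : t = E + (H : ℤ) ^ R * (D + H * (Z + m)) := by rw [pow_succ] at hm; linarith
  have hq : D + H * (Z + m) ≠ 0 := fun h =>
    hD0 (Int.eq_zero_of_abs_lt_dvd ⟨-(Z + m), by linarith⟩ hDb)
  have h1 : (H : ℤ) ^ R ≤ |(H : ℤ) ^ R * (D + H * (Z + m))| := by
    rw [abs_mul, abs_of_nonneg (by positivity : (0 : ℤ) ≤ (H : ℤ) ^ R)]
    exact le_mul_of_one_le_right (by positivity) (Int.one_le_abs hq)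
  have h2 : |(H : ℤ) ^ R * (D + H * (Z + m))| ≤ |t| + |E| := by
    have : (H : ℤ) ^ R * (D + H * (Z + m)) = t - E := by rw [ht']; ring
    rw [this]; exact abs_sub _ _
  have := abs_nonneg E
  linarith

end Crest.Agent.Heil
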