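import Mathlib
set_option autoImplicit false
namespace Crest.Agent.Heil
open Finset

noncomputable def box (N : ℕ) : Finset ((ℤ × ℤ) × (ℤ × ℤ)) :=
  (Icc (-(N : ℤ)) N ×ˢ Icc (-(N : ℤ)) N) ×ˢ (Icc (-(N : ℤ)) N ×ˢ Icc (-(N : ℤ)) N)

/-- sup norm of an integer vector -/
def latNrm (p : ℤ × ℤ) : ℕ := max p.1.natAbs p.2.natAbs

/-- the square `[-K,K]^2` -/
noncomputable def latSq (K : ℕ) : Finset (ℤ × ℤ) := Icc (-(K : ℤ)) K ×ˢ Icc (-(K : ℤ)) K

lemma mem_latSq {K : ℕ} {p : ℤ × ℤ} : p ∈ latSq K ↔ latNrm p ≤ K := by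
  unfold latSq latNrm
  simp only [mem_product, mem_Icc, max_le_iff]
  omega

lemma card_latSq (K : ℕ) : (latSq K).card = (2 * K + 1) ^ 2 := by
  unfold latSq
  rw [card_product, Int.card_Icc]
  have : ((K : ℤ) + 1 - -(K : ℤ)).toNat = 2 * K + 1 := by omega
  rw [this]; ring

lemma latNrm_eq_zero {p : ℤ × ℤ} : latNrm p = 0 ↔ p = 0 := by
  unfold latNrm
  constructor
  · intro h
    have h1 : p.1.natAbs = 0 := by omega
    have h2 : p.2.natAbs = 0 := by omega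
    ext
    · simpa using h1
    · simpa using h2
  · rintro rfl; simp

lemma latShell (f : ℕ → ℝ) (K : ℕ) :
    ∑ p ∈ (latSq K).erase 0, f (latNrm p) = ∑ n ∈ range K, 8 * ((n : ℝ) + 1) * f (n + 1) := by
  induction K with
  | zero =>
    have : (latSq 0).erase 0 = ∅ := by
      ext p
      simp only [mem_erase, mem_latSq, notMem_empty, iff_false, not_and]
      intro hp h
      exact hp (latNrm_eq_zero.1 (by omega))
    rw [this]; simp
  | succ K ih =>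
    rw [sum_range_succ, ← ih]
    have hsub : (latSq K).erase 0 ⊆ (latSq (K + 1)).erase 0 := by
      intro p hp
      simp only [mem_erase, mem_latSq] at hp ⊢
      exact ⟨hp.1, by omega⟩
    rw [← sum_sdiff hsub, add_comm]
    congr 1
    have hd : (latSq (K + 1)).erase 0 \ (latSq K).erase 0 = latSq (K + 1) \ latSq K := by
      ext p
      simp only [mem_sdiff, mem_erase, mem_latSq]
      constructor
      · rintro ⟨⟨h1, h2⟩, h3⟩
        exact ⟨h2, fun h => h3 ⟨h1, h⟩⟩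
      · rintro ⟨h1, h2⟩
        refine ⟨⟨?_, h1⟩, fun h => h2 h.2⟩
        rintro rfl
        exact h2 (by simp [latNrm])
    rw [hd]
    have hs : latSq K ⊆ latSq (K + 1) := by
      intro p hp
      simp only [mem_latSq] at hp ⊢
      omega
    have hc : ((latSq (K + 1) \ latSq K).card : ℝ) = 8 * ((K : ℝ) + 1) := by
      rw [card_sdiff_of_subset hs, card_latSq, card_latSq]
      have : (2 * (K + 1) + 1) ^ 2 - (2 * K + 1) ^ 2 = 8 * (K + 1) := by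
        have : (2 * (K + 1) + 1) ^ 2 = (2 * K + 1) ^ 2 + 8 * (K + 1) := by ring
        omega
      rw [this]; push_cast; ring
    rw [sum_congr rfl (g := fun _ => f (K + 1))]
    · rw [sum_const, nsmul_eq_mul, hc]
    · intro p hp
      simp only [mem_sdiff, mem_latSq] at hp
      congr 1
      omega

/-- Thue: a short nonzero vector in the lattice -/
lemma latThue (D : ℕ) (hD : 0 < D) (lam : ℤ) :
    ∃ p : ℤ × ℤ, p ≠ 0 ∧ (D : ℤ) ∣ p.2 - lam * p.1 ∧ latNrm p ≤ Nat.sqrt D := by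
  classical
  set s := Nat.sqrt D with hs
  have hlt : (range D).card < (range (s + 1) ×ˢ range (s + 1)).card := by
    rw [card_range, card_product, card_range]
    exact Nat.lt_succ_sqrt D
  obtain ⟨p, hp, q, hq, hne, heq⟩ := exists_ne_map_eq_of_card_lt_of_maps_to hlt
    (f := fun p : ℕ × ℕ => (((p.2 : ℤ) - lam * p.1) % D).toNat) (by
      intro p _
      simp only [coe_range, Set.mem_Iio]
      have h1 := Int.emod_nonneg ((p.2 : ℤ) - lam * p.1) (show (D : ℤ) ≠ 0 by omega)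
      have h2 := Int.emod_lt_of_pos ((p.2 : ℤ) - lam * p.1) (show (0 : ℤ) < D by omega)
      omega)
  simp only [mem_product, mem_range] at hp hq
  refine ⟨((p.1 : ℤ) - q.1, (p.2 : ℤ) - q.2), ?_, ?_, ?_⟩
  · intro h
    apply hne
    simp only [Prod.mk_eq_zero] at h
    ext <;> omega
  · have h1 := Int.emod_nonneg ((p.2 : ℤ) - lam * p.1) (show (D : ℤ) ≠ 0 by omega)
    have h2 := Int.emod_nonneg ((q.2 : ℤ) - lam * q.1) (show (D : ℤ) ≠ 0 by omega)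
    have h3 : ((p.2 : ℤ) - lam * p.1) % D = ((q.2 : ℤ) - lam * q.1) % D := by
      omega
    have h4 : (D : ℤ) ∣ ((p.2 : ℤ) - lam * p.1) - ((q.2 : ℤ) - lam * q.1) :=
      (Int.ModEq.dvd h3.symm)
    convert h4 using 1
    simp only
    ring
  · simp only [latNrm, max_le_iff]
    omega

/-- a lattice vector parallel to a minimal vector is an integer multiple of it -/
lemma latPar (D : ℕ) (lam x0 y0 : ℤ) (h : ℕ) (hh : 0 < h) (hn : latNrm (x0, y0) = h)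
    (hg : (D : ℤ) ∣ y0 - lam * x0)
    (hmin : ∀ p : ℤ × ℤ, p ≠ 0 → (D : ℤ) ∣ p.2 - lam * p.1 → h ≤ latNrm p)
    (a b : ℤ) (hab : (D : ℤ) ∣ b - lam * a) (hpar : y0 * a = x0 * b) :
    ∃ m : ℤ, a = m * x0 ∧ b = m * y0 := by
  have key : ∀ m : ℤ, latNrm (a - m * x0, b - m * y0) < h → a = m * x0 ∧ b = m * y0 := by
    intro m hm
    by_contra hne
    have h1 : ((a - m * x0, b - m * y0) : ℤ × ℤ) ≠ 0 := by
      intro h0
      simp only [Prod.mk_eq_zero] at h0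
      exact hne ⟨by linarith [h0.1], by linarith [h0.2]⟩
    have h2 := hmin _ h1 (by
      have : b - m * y0 - lam * (a - m * x0) = (b - lam * a) - m * (y0 - lam * x0) := by ring
      simp only
      rw [this]
      exact dvd_sub hab (Dvd.dvd.mul_left hg m))
    omega
  unfold latNrm at hn
  simp only at hn
  by_cases hx : x0.natAbs = h
  · have hx0 : x0 ≠ 0 := by rintro rfl; simp at hx; omega
    have hy : y0.natAbs ≤ h := by omega
    refine ⟨a / x0, key _ ?_⟩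
    have e1 : a - a / x0 * x0 = a % x0 := by
      have := Int.emod_add_mul_ediv a x0
      linarith [mul_comm x0 (a / x0)]
    have r0 := Int.emod_nonneg a hx0
    have r1 := Int.emod_lt_abs a hx0
    have e2 : x0 * (b - a / x0 * y0) = y0 * (a % x0) := by
      rw [← e1]; linear_combination -hpar
    have e3 : h * (b - a / x0 * y0).natAbs = y0.natAbs * (a % x0).natAbs := by
      rw [← hx, ← Int.natAbs_mul, ← Int.natAbs_mul, e2]
    have r2 : (a % x0).natAbs < h := by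
      rw [← hx]
      have := Int.natCast_natAbs x0
      omega
    have e4 : (b - a / x0 * y0).natAbs ≤ (a % x0).natAbs := by
      have : h * (b - a / x0 * y0).natAbs ≤ h * (a % x0).natAbs := by
        rw [e3]; exact Nat.mul_le_mul_right _ hy
      exact Nat.le_of_mul_le_mul_left this hh
    unfold latNrm
    simp only [e1]
    omega
  · have hy : y0.natAbs = h := by omega
    have hy0 : y0 ≠ 0 := by rintro rfl; simp at hy; omega
    have hx' : x0.natAbs ≤ h := by omega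
    refine ⟨b / y0, key _ ?_⟩
    have e1 : b - b / y0 * y0 = b % y0 := by
      have := Int.emod_add_mul_ediv b y0
      linarith [mul_comm y0 (b / y0)]
    have r0 := Int.emod_nonneg b hy0
    have r1 := Int.emod_lt_abs b hy0
    have e2 : y0 * (a - b / y0 * x0) = x0 * (b % y0) := by
      rw [← e1]; linear_combination hpar
    have e3 : h * (a - b / y0 * x0).natAbs = x0.natAbs * (b % y0).natAbs := by
      rw [← hy, ← Int.natAbs_mul, ← Int.natAbs_mul, e2]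
    have r2 : (b % y0).natAbs < h := by
      rw [← hy]
      have := Int.natCast_natAbs y0
      omega
    have e4 : (a - b / y0 * x0).natAbs ≤ (b % y0).natAbs := by
      have : h * (a - b / y0 * x0).natAbs ≤ h * (b % y0).natAbs := by
        rw [e3]; exact Nat.mul_le_mul_right _ hx'
      exact Nat.le_of_mul_le_mul_left this hh
    unfold latNrm
    simp only [e1]
    omega

lemma latNrm_smul (m : ℤ) (x y : ℤ) : latNrm (m * x, m * y) = m.natAbs * latNrm (x, y) := by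
  unfold latNrm
  simp only [Int.natAbs_mul]
  rw [Nat.mul_max_mul_left]

/-- the set of parallel pairs -/
noncomputable def latP (J I : ℕ) : Finset ((ℤ × ℤ) × (ℤ × ℤ)) :=
  ((latSq J).erase 0 ×ˢ latSq I).filter fun q => q.2.1 * q.1.2 = q.2.2 * q.1.1

lemma card_latP (J I : ℕ) :
    ((latP J I).card : ℝ) ≤ 16 * I * J * (harmonic J : ℝ) + 8 * (J : ℝ) ^ 2 := by
  classical
  let T : Finset (Σ _ : ℤ × ℤ, ℤ × ℤ) := ((latSq J).erase 0).sigma fun p =>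
    Icc (1 : ℤ) (J / latNrm p : ℕ) ×ˢ Icc (-((I / latNrm p : ℕ) : ℤ)) (I / latNrm p : ℕ)
  let φ : (Σ _ : ℤ × ℤ, ℤ × ℤ) → (ℤ × ℤ) × (ℤ × ℤ) := fun s =>
    ((s.2.1 * s.1.1, s.2.1 * s.1.2), (s.2.2 * s.1.1, s.2.2 * s.1.2))
  have hsub : latP J I ⊆ T.image φ := by
    rintro ⟨⟨j1, j2⟩, ⟨m1, m2⟩⟩ hq
    simp only [latP, mem_filter, mem_product, mem_erase, mem_latSq] at hq
    obtain ⟨⟨⟨hj0, hjJ⟩, hmI⟩, hpar⟩ := hq
    have hg : 0 < Int.gcd j1 j2 := by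
      rw [Int.gcd_pos_iff]
      by_contra hc
      push Not at hc
      exact hj0 (by simp [hc.1, hc.2])
    obtain ⟨g, p1, p2, hg0, hcop, e1, e2⟩ := Int.exists_gcd_one' hg
    have hc : IsCoprime p1 p2 := Int.isCoprime_iff_gcd_eq_one.2 hcop
    obtain ⟨u, v, huv⟩ := hc
    have hpp : m1 * p2 = m2 * p1 := by
      have : (m1 * p2 - m2 * p1) * g = 0 := by
        rw [e1, e2] at hpar; linear_combination hpar
      rcases mul_eq_zero.1 this with h | h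
      · linarith
      · omega
    set t : ℤ := m1 * u + m2 * v with ht
    have hm1 : m1 = t * p1 := by
      rw [ht]; linear_combination (-m1) * huv + v * hpp
    have hm2 : m2 = t * p2 := by
      rw [ht]; linear_combination (-m2) * huv - u * hpp
    have hp0 : ((p1, p2) : ℤ × ℤ) ≠ 0 := by
      intro h
      simp only [Prod.mk_eq_zero] at h
      rw [h.1, h.2] at huv
      simp at huv
    have hpn : 0 < latNrm (p1, p2) := Nat.pos_of_ne_zero fun h => hp0 (latNrm_eq_zero.1 h)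
    have n1 : g * latNrm (p1, p2) ≤ J := by
      have := latNrm_smul g p1 p2
      rw [e1, e2, mul_comm p1, mul_comm p2, this] at hjJ
      simpa using hjJ
    have n2 : t.natAbs * latNrm (p1, p2) ≤ I := by
      have := latNrm_smul t p1 p2
      rw [hm1, hm2, this] at hmI
      exact hmI
    have n1' : g ≤ J / latNrm (p1, p2) := (Nat.le_div_iff_mul_le hpn).2 n1
    have n2' : t.natAbs ≤ I / latNrm (p1, p2) := (Nat.le_div_iff_mul_le hpn).2 n2
    rw [mem_image]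
    refine ⟨⟨(p1, p2), ((g : ℤ), t)⟩, ?_, ?_⟩
    · simp only [T, mem_sigma, mem_erase, mem_latSq, mem_product, mem_Icc]
      refine ⟨⟨hp0, ?_⟩, ⟨by omega, by omega⟩, by omega, by omega⟩
      calc latNrm (p1, p2) = 1 * latNrm (p1, p2) := (one_mul _).symm
        _ ≤ g * latNrm (p1, p2) := Nat.mul_le_mul_right _ hg0
        _ ≤ J := n1
    · simp only [φ, Prod.mk.injEq]
      refine ⟨⟨?_, ?_⟩, hm1.symm, hm2.symm⟩
      · rw [e1]; ring
      · rw [e2]; ring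
  have hT : (T.card : ℝ) ≤ ∑ p ∈ (latSq J).erase 0,
      ((J : ℝ) / (latNrm p : ℝ)) * (2 * ((I : ℝ) / (latNrm p : ℝ)) + 1) := by
    simp only [T, card_sigma]
    rw [Nat.cast_sum]
    apply sum_le_sum
    intro p _
    rw [card_product, Int.card_Icc, Int.card_Icc]
    have a1 : ∀ k : ℕ, ((k : ℤ) + 1 - 1).toNat = k := by intro k; omega
    have a2 : ∀ k : ℕ, ((k : ℤ) + 1 - -(k : ℤ)).toNat = 2 * k + 1 := by intro k; omega
    rw [a1, a2, Nat.cast_mul, Nat.cast_add, Nat.cast_mul, Nat.cast_one, Nat.cast_ofNat]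
    have b1 : ((J / latNrm p : ℕ) : ℝ) ≤ (J : ℝ) / (latNrm p : ℝ) := Nat.cast_div_le
    have b2 : ((I / latNrm p : ℕ) : ℝ) ≤ (I : ℝ) / (latNrm p : ℝ) := Nat.cast_div_le
    apply mul_le_mul b1 (by linarith) (by positivity) (by positivity)
  have hS := latShell (fun n => ((J : ℝ) / (n : ℝ)) * (2 * ((I : ℝ) / (n : ℝ)) + 1)) J
  rw [hS] at hT
  have hH : (harmonic J : ℝ) = ∑ n ∈ range J, ((n : ℝ) + 1)⁻¹ := by
    unfold harmonic
    push_cast
    rfl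
  have hE : ∑ n ∈ range J, 8 * ((n : ℝ) + 1) *
      ((J : ℝ) / ((n + 1 : ℕ) : ℝ) * (2 * ((I : ℝ) / ((n + 1 : ℕ) : ℝ)) + 1))
      = 16 * I * J * (harmonic J : ℝ) + 8 * (J : ℝ) ^ 2 := by
    rw [hH, mul_sum]
    have : 8 * (J : ℝ) ^ 2 = ∑ n ∈ range J, 8 * (J : ℝ) := by
      rw [sum_const, card_range, nsmul_eq_mul]; ring
    rw [this, ← sum_add_distrib]
    apply sum_congr rfl
    intro n _
    push_cast
    have : (n : ℝ) + 1 ≠ 0 := by positivity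
    field_simp
    ring
  calc ((latP J I).card : ℝ) ≤ ((T.image φ).card : ℝ) := by exact_mod_cast card_le_card hsub
    _ ≤ T.card := by exact_mod_cast card_image_le
    _ ≤ _ := by rw [← hE]; exact hT

lemma latSub {a b : ℤ} {N : ℕ} (ha : a.natAbs ≤ N) (hb : b.natAbs ≤ N) :
    (a - b).natAbs ≤ 2 * N := by omega

lemma mem_box {N : ℕ} {v : (ℤ × ℤ) × (ℤ × ℤ)} (hv : v ∈ box N) :
    v.1.1.natAbs ≤ N ∧ v.1.2.natAbs ≤ N ∧ v.2.1.natAbs ≤ N ∧ v.2.2.natAbs ≤ N := by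
  simp only [box, mem_product, mem_Icc] at hv
  omega

lemma latNum (D h N : ℕ) (hD : 0 < D) (hpos : 0 < h) (hsq : h ^ 2 ≤ D) (hN : D ≤ N) :
    ((latP (2 * h * N / D) (2 * N / h)).card : ℝ)
      ≤ 200 * (N : ℝ) ^ 2 * (1 + Real.log (2 * N)) / D := by
  have hhD : h ≤ D := le_trans (by nlinarith) hsq
  have hDr : (0 : ℝ) < D := by exact_mod_cast hD
  have hhr : (0 : ℝ) < h := by exact_mod_cast hpos
  have hIr : ((2 * N / h : ℕ) : ℝ) ≤ 2 * N / h := by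
    have : ((2 * N / h : ℕ) : ℝ) ≤ ((2 * N : ℕ) : ℝ) / h := Nat.cast_div_le
    rwa [Nat.cast_mul, Nat.cast_ofNat] at this
  have hJr : ((2 * h * N / D : ℕ) : ℝ) ≤ 2 * h * N / D := by
    have : ((2 * h * N / D : ℕ) : ℝ) ≤ ((2 * h * N : ℕ) : ℝ) / D := Nat.cast_div_le
    rwa [Nat.cast_mul, Nat.cast_mul, Nat.cast_ofNat] at this
  generalize 2 * h * N / D = J at hJr ⊢
  generalize 2 * N / h = I at hIr ⊢
  have hP := card_latP J I
  have hN1 : (1 : ℝ) ≤ N := by exact_mod_cast (show 1 ≤ N by omega)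
  have hlog0 : 0 ≤ Real.log (2 * N) := Real.log_nonneg (by linarith)
  have hH : (harmonic J : ℝ) ≤ 1 + Real.log (2 * N) := by
    refine (harmonic_le_one_add_log J).trans ?_
    rcases Nat.eq_zero_or_pos J with h0 | h0
    · rw [h0]; simpa using hlog0
    · have hJ2 : (J : ℝ) ≤ 2 * N := by
        refine hJr.trans ?_
        rw [div_le_iff₀ hDr]
        have : (h : ℝ) ≤ D := by exact_mod_cast hhD
        nlinarith
      have := Real.log_le_log (by exact_mod_cast h0) hJ2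
      linarith
  have hH0 : (0 : ℝ) ≤ (harmonic J : ℝ) := by
    have : (0 : ℚ) ≤ harmonic J := Finset.sum_nonneg fun i _ => by positivity
    exact_mod_cast this
  have hIJ : (I : ℝ) * J ≤ 4 * (N : ℝ) ^ 2 / D := by
    calc (I : ℝ) * J ≤ (2 * N / h) * (2 * h * N / D) :=
          mul_le_mul hIr hJr (by positivity) (by positivity)
      _ = 4 * (N : ℝ) ^ 2 / D := by field_simp; ring
  have hJJ : (J : ℝ) ^ 2 ≤ 4 * (N : ℝ) ^ 2 / D := by
    have hsq' : (h : ℝ) ^ 2 ≤ D := by exact_mod_cast hsq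
    calc (J : ℝ) ^ 2 ≤ (2 * h * N / D) ^ 2 := by gcongr
      _ = (4 * (N : ℝ) ^ 2 / D) * ((h : ℝ) ^ 2 / D) := by field_simp; ring
      _ ≤ (4 * (N : ℝ) ^ 2 / D) * 1 := by
          gcongr
          exact (div_le_one hDr).2 hsq'
      _ = _ := mul_one _
  have e1 : 4 * (N : ℝ) ^ 2 / D = 4 * ((N : ℝ) ^ 2 / D) := by ring
  have e2 : 200 * (N : ℝ) ^ 2 * (1 + Real.log (2 * N)) / D
      = 200 * ((N : ℝ) ^ 2 / D) * (1 + Real.log (2 * N)) := by ring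
  rw [e1] at hIJ hJJ
  rw [e2]
  have hQ0 : 0 ≤ (N : ℝ) ^ 2 / D := by positivity
  generalize (N : ℝ) ^ 2 / D = Q at hIJ hJJ hQ0 ⊢
  have k1 : (I : ℝ) * J * (harmonic J : ℝ) ≤ 4 * Q * (1 + Real.log (2 * N)) :=
    mul_le_mul hIJ hH hH0 (by positivity)
  nlinarith [mul_nonneg hQ0 hlog0]

lemma latDiv (D : ℕ) (lam x0 y0 : ℤ) (hgd : (D : ℤ) ∣ y0 - lam * x0) (a b : ℤ)
    (hab : (D : ℤ) ∣ b - lam * a) : (D : ℤ) * ((x0 * b - y0 * a) / D) = x0 * b - y0 * a := by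
  apply Int.mul_ediv_cancel'
  have : x0 * b - y0 * a = x0 * (b - lam * a) - a * (y0 - lam * x0) := by ring
  rw [this]
  exact dvd_sub (Dvd.dvd.mul_left hab _) (Dvd.dvd.mul_left hgd _)

lemma latBd (D h N : ℕ) (hD : 0 < D) (lam x0 y0 : ℤ) (hgd : (D : ℤ) ∣ y0 - lam * x0)
    (hx : x0.natAbs ≤ h) (hy : y0.natAbs ≤ h) (a b : ℤ)
    (hab : (D : ℤ) ∣ b - lam * a) (ha : a.natAbs ≤ N) (hb : b.natAbs ≤ N) :
    ((x0 * b - y0 * a) / D).natAbs ≤ 2 * h * N / D := by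
  rw [Nat.le_div_iff_mul_le hD]
  have e := congrArg Int.natAbs (latDiv D lam x0 y0 hgd a b hab)
  rw [Int.natAbs_mul, Int.natAbs_natCast] at e
  rw [mul_comm, e]
  calc (x0 * b - y0 * a).natAbs ≤ (x0 * b).natAbs + (y0 * a).natAbs := Int.natAbs_sub_le _ _
    _ = x0.natAbs * b.natAbs + y0.natAbs * a.natAbs := by rw [Int.natAbs_mul, Int.natAbs_mul]
    _ ≤ h * N + h * N := Nat.add_le_add (Nat.mul_le_mul hx hb) (Nat.mul_le_mul hy ha)
    _ = 2 * h * N := by ring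

lemma latMb (h M : ℕ) (hpos : 0 < h) (x0 y0 : ℤ) (hgn : latNrm (x0, y0) = h) (m a b : ℤ)
    (ha : a = m * x0) (hb : b = m * y0) (ha' : a.natAbs ≤ M) (hb' : b.natAbs ≤ M) :
    m.natAbs ≤ M / h := by
  rw [Nat.le_div_iff_mul_le hpos, ← hgn, ← latNrm_smul, ← ha, ← hb]
  simp only [latNrm, max_le_iff]
  exact ⟨ha', hb'⟩

lemma latFib (D h N : ℕ) (hD : 0 < D) (hpos : 0 < h) (lam x0 y0 τ : ℤ)
    (hgd : (D : ℤ) ∣ y0 - lam * x0) (hgn : latNrm (x0, y0) = h)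
    (hx : x0.natAbs ≤ h) (hy : y0.natAbs ≤ h)
    (hpar : ∀ a b : ℤ, (D : ℤ) ∣ b - lam * a → y0 * a = x0 * b → ∃ m : ℤ, a = m * x0 ∧ b = m * y0)
    (a1 a2 b1 b2 c1 c2 d1 d2 : ℤ)
    (v1 : a1.natAbs ≤ N) (v2 : a2.natAbs ≤ N) (v3 : b1.natAbs ≤ N) (v4 : b2.natAbs ≤ N)
    (w1 : c1.natAbs ≤ N) (w2 : c2.natAbs ≤ N) (w3 : d1.natAbs ≤ N) (w4 : d2.natAbs ≤ N)
    (vd1 : (D : ℤ) ∣ b1 - lam * a1) (vd2 : (D : ℤ) ∣ b2 - lam * a2)
    (wd1 : (D : ℤ) ∣ d1 - lam * c1) (wd2 : (D : ℤ) ∣ d2 - lam * c2)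
    (vt : a1 * b2 - a2 * b1 = τ) (wt : c1 * d2 - c2 * d1 = τ)
    (vn : ¬ (y0 * a1 = x0 * b1 ∧ y0 * a2 = x0 * b2))
    (j1 : (x0 * d1 - y0 * c1) / D = (x0 * b1 - y0 * a1) / D)
    (j2 : (x0 * d2 - y0 * c2) / D = (x0 * b2 - y0 * a2) / D) :
    ∃ m : ℤ × ℤ, (((x0 * b1 - y0 * a1) / D, (x0 * b2 - y0 * a2) / D), m) ∈
        latP (2 * h * N / D) (2 * N / h) ∧
      a1 = c1 + m.1 * x0 ∧ a2 = c2 + m.2 * x0 ∧ b1 = d1 + m.1 * y0 ∧ b2 = d2 + m.2 * y0 := by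
  have ev1 := latDiv D lam x0 y0 hgd _ _ vd1
  have ev2 := latDiv D lam x0 y0 hgd _ _ vd2
  have ew1 := latDiv D lam x0 y0 hgd _ _ wd1
  have ew2 := latDiv D lam x0 y0 hgd _ _ wd2
  have bd1 := latBd D h N hD lam x0 y0 hgd hx hy _ _ vd1 v1 v3
  have bd2 := latBd D h N hD lam x0 y0 hgd hx hy _ _ vd2 v2 v4
  rw [j1] at ew1
  rw [j2] at ew2
  generalize (x0 * b1 - y0 * a1) / D = k1 at *
  generalize (x0 * b2 - y0 * a2) / D = k2 at *
  obtain ⟨m1, e1, f1⟩ := hpar (a1 - c1) (b1 - d1) (by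
    have : b1 - d1 - lam * (a1 - c1) = (b1 - lam * a1) - (d1 - lam * c1) := by ring
    rw [this]; exact dvd_sub vd1 wd1) (by linear_combination ev1 - ew1)
  obtain ⟨m2, e2, f2⟩ := hpar (a2 - c2) (b2 - d2) (by
    have : b2 - d2 - lam * (a2 - c2) = (b2 - lam * a2) - (d2 - lam * c2) := by ring
    rw [this]; exact dvd_sub vd2 wd2) (by linear_combination ev2 - ew2)
  have m1b := latMb h (2 * N) hpos x0 y0 hgn m1 _ _ e1 f1 (latSub v1 w1) (latSub v3 w3)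
  have m2b := latMb h (2 * N) hpos x0 y0 hgn m2 _ _ e2 f2 (latSub v2 w2) (latSub v4 w4)
  have g1 : a1 = c1 + m1 * x0 := by linear_combination e1
  have g2 : a2 = c2 + m2 * x0 := by linear_combination e2
  have g3 : b1 = d1 + m1 * y0 := by linear_combination f1
  have g4 : b2 = d2 + m2 * y0 := by linear_combination f2
  refine ⟨(m1, m2), ?_, g1, g2, g3, g4⟩
  simp only [latP, mem_filter, mem_product, mem_erase, mem_latSq]
  refine ⟨⟨⟨?_, ?_⟩, ?_⟩, ?_⟩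
  · intro h0
    simp only [Prod.mk_eq_zero] at h0
    rw [h0.1] at ev1
    rw [h0.2] at ev2
    exact vn ⟨by linear_combination ev1, by linear_combination ev2⟩
  · simp only [latNrm, max_le_iff]
    exact ⟨bd1, bd2⟩
  · simp only [latNrm, max_le_iff]
    exact ⟨m1b, m2b⟩
  · have hD0 : (D : ℤ) ≠ 0 := by exact_mod_cast hD.ne'
    apply mul_left_cancel₀ hD0
    rw [g1, g2, g3, g4] at vt
    linear_combination m1 * ew2 - m2 * ew1 + vt - wt

lemma latMain (D h N : ℕ) (hD : 0 < D) (hpos : 0 < h) (lam x0 y0 τ : ℤ)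
    (hgd : (D : ℤ) ∣ y0 - lam * x0) (hgn : latNrm (x0, y0) = h)
    (hx : x0.natAbs ≤ h) (hy : y0.natAbs ≤ h)
    (hpar : ∀ a b : ℤ, (D : ℤ) ∣ b - lam * a → y0 * a = x0 * b → ∃ m : ℤ, a = m * x0 ∧ b = m * y0)
    (S : Finset ((ℤ × ℤ) × (ℤ × ℤ)))
    (hmemS : ∀ v ∈ S, (v.1.1.natAbs ≤ N ∧ v.1.2.natAbs ≤ N ∧ v.2.1.natAbs ≤ N ∧
        v.2.2.natAbs ≤ N) ∧ (D : ℤ) ∣ v.2.1 - lam * v.1.1 ∧ (D : ℤ) ∣ v.2.2 - lam * v.1.2 ∧
            v.1.1 * v.2.2 - v.1.2 * v.2.1 = τ ∧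
            ¬ (y0 * v.1.1 = x0 * v.2.1 ∧ y0 * v.1.2 = x0 * v.2.2)) :
    S.card ≤ (latP (2 * h * N / D) (2 * N / h)).card := by
  classical
  obtain ⟨jj, hjj⟩ : ∃ jj : (ℤ × ℤ) × (ℤ × ℤ) → ℤ × ℤ, ∀ v, jj v =
    ((x0 * v.2.1 - y0 * v.1.1) / D, (x0 * v.2.2 - y0 * v.1.2) / D) := ⟨_, fun _ => rfl⟩
  have hb0 : ∀ j : ℤ × ℤ, ∃ w : (ℤ × ℤ) × (ℤ × ℤ), (∃ v ∈ S, jj v = j) → w ∈ S ∧ jj w = j := by
    intro j
    by_cases hj : ∃ v ∈ S, jj v = j
    · obtain ⟨v, hv⟩ := hj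
      exact ⟨v, fun _ => hv⟩
    · exact ⟨0, fun h => absurd h hj⟩
  choose base hbase0 using hb0
  have hm : ∀ v ∈ S, ∃ m : ℤ × ℤ, (jj v, m) ∈ latP (2 * h * N / D) (2 * N / h) ∧
      v.1.1 = (base (jj v)).1.1 + m.1 * x0 ∧ v.1.2 = (base (jj v)).1.2 + m.2 * x0 ∧
      v.2.1 = (base (jj v)).2.1 + m.1 * y0 ∧ v.2.2 = (base (jj v)).2.2 + m.2 * y0 := by
    intro v hv
    obtain ⟨hw, hjw⟩ := hbase0 _ ⟨v, hv, rfl⟩
    generalize base (jj v) = w at hw hjw ⊢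
    rw [hjj, hjj] at hjw
    obtain ⟨⟨v1, v2, v3, v4⟩, vd1, vd2, vt, vn⟩ := hmemS v hv
    obtain ⟨⟨w1, w2, w3, w4⟩, wd1, wd2, wt, -⟩ := hmemS w hw
    rw [hjj]
    exact latFib D h N hD hpos lam x0 y0 τ hgd hgn hx hy hpar _ _ _ _ _ _ _ _ v1 v2 v3 v4
      w1 w2 w3 w4 vd1 vd2 wd1 wd2 vt wt vn (congrArg Prod.fst hjw) (congrArg Prod.snd hjw)
  choose! mm hmm using hm
  have hinj : Set.InjOn (fun v => (jj v, mm v)) (S : Set _) := by
    intro v hv v' hv' he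
    simp only [Prod.mk.injEq] at he
    obtain ⟨-, e1, e2, e3, e4⟩ := hmm v hv
    obtain ⟨-, f1, f2, f3, f4⟩ := hmm v' hv'
    rw [he.1, he.2] at e1 e2 e3 e4
    exact Prod.ext (Prod.ext (e1.trans f1.symm) (e2.trans f2.symm))
      (Prod.ext (e3.trans f3.symm) (e4.trans f4.symm))
  exact card_le_card_of_injOn (fun v => (jj v, mm v)) (fun v hv => (hmm v hv).1) hinj

theorem lattice (D : ℕ) (hD : 0 < D) (lam : ℤ) :
    ∃ (x0 y0 : ℤ) (h : ℕ), 0 < h ∧ h ^ 2 ≤ D ∧ |x0| ≤ h ∧ |y0| ≤ h ∧ ¬ (x0 = 0 ∧ y0 = 0) ∧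
      ∀ (N : ℕ) (τ : ℤ), D ≤ N →
        ((((box N).filter fun v => (D : ℤ) ∣ v.2.1 - lam * v.1.1 ∧ (D : ℤ) ∣ v.2.2 - lam * v.1.2 ∧
            v.1.1 * v.2.2 - v.1.2 * v.2.1 = τ ∧
            ¬ (y0 * v.1.1 = x0 * v.2.1 ∧ y0 * v.1.2 = x0 * v.2.2)).card : ℝ)
          ≤ 200 * (N : ℝ) ^ 2 * (1 + Real.log (2 * N)) / D) ∧
        ((((box N).filter fun v => (D : ℤ) ∣ v.2.1 - lam * v.1.1 ∧ (D : ℤ) ∣ v.2.2 - lam * v.1.2 ∧
            (y0 * v.1.1 = x0 * v.2.1 ∧ y0 * v.1.2 = x0 * v.2.2)).card : ℝ)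
          ≤ 9 * (N : ℝ) ^ 2 / (h : ℝ) ^ 2) := by
  classical
  obtain ⟨p0, hp0, hp0d, hp0n⟩ := latThue D hD lam
  have hex : ∃ n : ℕ, ∃ p : ℤ × ℤ, p ≠ 0 ∧ (D : ℤ) ∣ p.2 - lam * p.1 ∧ latNrm p = n :=
    ⟨_, p0, hp0, hp0d, rfl⟩
  obtain ⟨⟨x0, y0⟩, hg0, hgd, hgn⟩ := Nat.find_spec hex
  have hmin : ∀ p : ℤ × ℤ, p ≠ 0 → (D : ℤ) ∣ p.2 - lam * p.1 → Nat.find hex ≤ latNrm p :=
    fun p h1 h2 => Nat.find_min' hex ⟨p, h1, h2, rfl⟩
  generalize Nat.find hex = h at hgn hmin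
  simp only at hgd
  have hpos : 0 < h := Nat.pos_of_ne_zero fun h0 => hg0 (latNrm_eq_zero.1 (hgn.trans h0))
  have hsq : h ^ 2 ≤ D := by
    have h1 : h ≤ Nat.sqrt D := (hmin p0 hp0 hp0d).trans hp0n
    exact Nat.le_sqrt'.1 h1
  have hx : x0.natAbs ≤ h := by rw [← hgn]; simp [latNrm]
  have hy : y0.natAbs ≤ h := by rw [← hgn]; simp [latNrm]
  have hx' : |x0| ≤ h := by rw [← Int.natCast_natAbs]; exact_mod_cast hx
  have hy' : |y0| ≤ h := by rw [← Int.natCast_natAbs]; exact_mod_cast hy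
  have hpar := latPar D lam x0 y0 h hpos hgn hgd hmin
  have hhD : h ≤ D := le_trans (by nlinarith) hsq
  refine ⟨x0, y0, h, hpos, hsq, hx', hy', fun h0 => hg0 (by simp [h0.1, h0.2]), ?_⟩
  intro N τ hN
  have hhN : h ≤ N := hhD.trans hN
  have hhr : (0 : ℝ) < h := by exact_mod_cast hpos
  have hNr : (h : ℝ) ≤ N := by exact_mod_cast hhN
  constructor
  · refine le_trans ?_ (latNum D h N hD hpos hsq hN)
    rw [Nat.cast_le]
    apply latMain D h N hD hpos lam x0 y0 τ hgd hgn hx hy hpar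
    intro v hv
    rw [mem_filter] at hv
    exact ⟨mem_box hv.1, hv.2⟩
  · have hsub : ((box N).filter fun v => (D : ℤ) ∣ v.2.1 - lam * v.1.1 ∧
        (D : ℤ) ∣ v.2.2 - lam * v.1.2 ∧
            (y0 * v.1.1 = x0 * v.2.1 ∧ y0 * v.1.2 = x0 * v.2.2)) ⊆
        (latSq (N / h)).image fun m : ℤ × ℤ =>
        ((m.1 * x0, m.2 * x0), (m.1 * y0, m.2 * y0)) := by
      intro v hv
      rw [mem_filter] at hv
      obtain ⟨hb, d1, d2, p1, p2⟩ := hv
      obtain ⟨v1, v2, v3, v4⟩ := mem_box hb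
      obtain ⟨m1, a1, b1⟩ := hpar _ _ d1 p1
      obtain ⟨m2, a2, b2⟩ := hpar _ _ d2 p2
      rw [mem_image]
      refine ⟨(m1, m2), ?_, ?_⟩
      · rw [mem_latSq]
        simp only [latNrm, max_le_iff]
        exact ⟨latMb h N hpos x0 y0 hgn m1 _ _ a1 b1 v1 v3,
          latMb h N hpos x0 y0 hgn m2 _ _ a2 b2 v2 v4⟩
      · exact Prod.ext (Prod.ext a1.symm a2.symm) (Prod.ext b1.symm b2.symm)
    have hc := (card_le_card hsub).trans card_image_le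
    rw [card_latSq] at hc
    have hIr : ((N / h : ℕ) : ℝ) ≤ N / h := Nat.cast_div_le
    have h1 : (1 : ℝ) ≤ N / h := (one_le_div hhr).2 hNr
    calc _ ≤ (((2 * (N / h) + 1) ^ 2 : ℕ) : ℝ) := Nat.cast_le.2 hc
      _ = (2 * ((N / h : ℕ) : ℝ) + 1) ^ 2 := by
          rw [Nat.cast_pow, Nat.cast_add, Nat.cast_mul, Nat.cast_one, Nat.cast_ofNat]
      _ ≤ (3 * ((N : ℝ) / h)) ^ 2 := by
          gcongr
          linarith
      _ = 9 * (N : ℝ) ^ 2 / (h : ℝ) ^ 2 := by field_simp; ring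

end Crest.Agent.Heil
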