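import Mathlib
set_option autoImplicit false
namespace Crest.Agent.Heil
open Finset

open Classical in
theorem fiber_card {G H : Type} [AddGroup G] [AddGroup H] [Fintype G] [Fintype H] (f : G →+ H)
    (hf : Function.Surjective f) (b : H) :
    (univ.filter fun w => f w = b).card * Fintype.card H = Fintype.card G := by
  have h1 : ∀ c : H, (univ.filter fun w => f w = c).card = (univ.filter fun w => f w = b).card :=
    fun c => AddMonoidHom.card_fiber_eq_of_mem_range f (hf c) (hf b)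
  have h2 := Finset.card_eq_sum_card_fiberwise (f := f) (s := (univ : Finset G))
    (t := (univ : Finset H)) (fun _ _ => by simp)
  rw [Finset.card_univ] at h2
  rw [h2, Finset.sum_congr rfl fun c _ => h1 c]
  simp [mul_comm]

/-- the linear form -/
def selL {F : Type} [CommRing F] (z : Fin 4 → F) : (Fin 5 → F) →+ F where
  toFun w := w 0 * z 0 + w 1 * z 1 + w 2 * z 2 + w 3 * z 3 - w 4
  map_zero' := by simp
  map_add' a b := by simp only [Pi.add_apply]; ring

theorem selL_apply {F : Type} [CommRing F] (z : Fin 4 → F) (w : Fin 5 → F) :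
    selL z w = w 0 * z 0 + w 1 * z 1 + w 2 * z 2 + w 3 * z 3 - w 4 := rfl

theorem selL_single {F : Type} [CommRing F] (z : Fin 4 → F) (i : Fin 4) (c : F) :
    selL z (Pi.single i.castSucc c) = c * z i := by
  rw [selL_apply]
  fin_cases i <;> simp [Pi.single_apply, Fin.ext_iff]

theorem selL_last {F : Type} [CommRing F] (z : Fin 4 → F) (c : F) :
    selL z (Pi.single 4 c) = -c := by
  rw [selL_apply]
  simp [Pi.single_apply, Fin.ext_iff]

theorem selL_ex {F : Type} [CommRing F] (i j : Fin 4) (c d r : F) :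
    ∃ w, ∀ z : Fin 4 → F, selL z w = c * z i + d * z j - r :=
  ⟨Pi.single i.castSucc c + Pi.single j.castSucc d + Pi.single 4 r, fun z => by
    rw [map_add, map_add, selL_single, selL_single, selL_last]; ring⟩

open Classical in
theorem select (l : ℕ) [Fact l.Prime] (hl : l ≠ 2) :
    ∃ sel : (Fin 5 → ZMod l) → (Fin 4 → ZMod l) → Prop,
      (∀ z, (univ.filter fun w => sel w z).card = l ^ 4) ∧
      (∀ z2 z3, z2 ≠ z3 → (univ.filter fun w => sel w z2 ∧ sel w z3).card ≤ l ^ 3) ∧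
      (∀ z1 z2 z3, (∀ x y : ZMod l, y • (z1 - z3) = x • (z2 - z3) → x = 0 ∧ y = 0) →
        (univ.filter fun w => sel w z1 ∧ sel w z2 ∧ sel w z3).card ≤ l ^ 2) ∧
      (∀ w z1 z2 z3, z1 ≠ z2 → z1 ≠ z3 → z2 ≠ z3 →
        (∃ x y : ZMod l, ¬ (x = 0 ∧ y = 0) ∧ y • (z1 - z3) = x • (z2 - z3)) →
        sel w z1 → sel w z2 → sel w z3 →
        z1 2 = z3 2 ∧ z1 3 = z3 3 ∧ z2 2 = z3 2 ∧ z2 3 = z3 3) := by
  have hlp : l.Prime := Fact.out
  have hl0 : 0 < l := hlp.pos
  obtain ⟨th, hth⟩ : ∃ a : ZMod l, ¬ IsSquare a :=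
    FiniteField.exists_nonsquare (by rw [ZMod.ringChar_zmod_n]; exact hl)
  have hc5 : Fintype.card (Fin 5 → ZMod l) = l ^ 5 := by simp [ZMod.card]
  refine ⟨fun w z => selL z w = -(z 2 ^ 2 - th * z 3 ^ 2), ?_, ?_, ?_, ?_⟩
  · intro z
    have h := fiber_card (selL z) (fun a => by
      obtain ⟨w, hw⟩ := selL_ex 0 0 0 0 (-a)
      exact ⟨w, by rw [hw]; ring⟩)
      (-(z 2 ^ 2 - th * z 3 ^ 2))
    rw [hc5, ZMod.card, show l ^ 5 = l ^ 4 * l by ring] at h
    convert Nat.eq_of_mul_eq_mul_right hl0 h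
  · intro z2 z3 hne
    obtain ⟨i, hi⟩ := Function.ne_iff.mp hne
    have hd : z2 i - z3 i ≠ 0 := sub_ne_zero.mpr hi
    have h := fiber_card ((selL z2).prod (selL z3)) (by
      rintro ⟨a, b⟩
      obtain ⟨w, hw⟩ := selL_ex i i ((a - b) / (z2 i - z3 i)) 0
        ((a - b) / (z2 i - z3 i) * z2 i - a)
      refine ⟨w, ?_⟩
      simp only [AddMonoidHom.prod_apply, hw, Prod.mk.injEq]
      constructor
      · ring
      · field_simp; ring) (-(z2 2 ^ 2 - th * z2 3 ^ 2), -(z3 2 ^ 2 - th * z3 3 ^ 2))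
    rw [hc5, Fintype.card_prod, ZMod.card, show l ^ 5 = l ^ 3 * (l * l) by ring] at h
    have h' := Nat.eq_of_mul_eq_mul_right (Nat.mul_pos hl0 hl0) h
    refine le_of_eq ?_
    rw [← h']
    congr 1
    ext w
    simp [Prod.ext_iff]
  · intro z1 z2 z3 hind
    have hmin : ∃ i j, (z1 i - z3 i) * (z2 j - z3 j) - (z1 j - z3 j) * (z2 i - z3 i) ≠ 0 := by
      by_contra hcon
      push Not at hcon
      have h0 : ∀ i, z1 i - z3 i = 0 := fun i => by
        refine (hind (z1 i - z3 i) (z2 i - z3 i) ?_).1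
        funext j
        simp only [Pi.smul_apply, Pi.sub_apply, smul_eq_mul]
        linear_combination -hcon i j
      have := (hind 0 1 (by funext j; simp [h0 j])).2
      exact one_ne_zero this
    obtain ⟨i, j, hij⟩ := hmin
    set m := (z1 i - z3 i) * (z2 j - z3 j) - (z1 j - z3 j) * (z2 i - z3 i) with hm
    have h := fiber_card ((selL z1).prod ((selL z2).prod (selL z3))) (by
      rintro ⟨a, b, c⟩
      obtain ⟨w, hw⟩ := selL_ex i j (((a - c) * (z2 j - z3 j) - (b - c) * (z1 j - z3 j)) / m)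
        (((b - c) * (z1 i - z3 i) - (a - c) * (z2 i - z3 i)) / m)
        (((a - c) * (z2 j - z3 j) - (b - c) * (z1 j - z3 j)) / m * z3 i +
          ((b - c) * (z1 i - z3 i) - (a - c) * (z2 i - z3 i)) / m * z3 j - c)
      refine ⟨w, ?_⟩
      simp only [AddMonoidHom.prod_apply, hw, Prod.mk.injEq]
      refine ⟨?_, ?_, ?_⟩
      · field_simp; rw [hm]; ring
      · field_simp; rw [hm]; ring
      · ring)
      (-(z1 2 ^ 2 - th * z1 3 ^ 2), -(z2 2 ^ 2 - th * z2 3 ^ 2), -(z3 2 ^ 2 - th * z3 3 ^ 2))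
    rw [hc5, Fintype.card_prod, Fintype.card_prod, ZMod.card,
      show l ^ 5 = l ^ 2 * (l * (l * l)) by ring] at h
    have h' := Nat.eq_of_mul_eq_mul_right (Nat.mul_pos hl0 (Nat.mul_pos hl0 hl0)) h
    refine le_of_eq ?_
    rw [← h']
    congr 1
    ext w
    simp [Prod.ext_iff]
  · rintro w z1 z2 z3 h12 h13 h23 ⟨x, y, hxy, hcol⟩ s1 s2 s3
    have hy : y ≠ 0 := by
      rintro rfl
      have hx : x ≠ 0 := fun h => hxy ⟨h, rfl⟩
      rw [zero_smul] at hcol
      exact h23 (sub_eq_zero.mp ((smul_eq_zero.mp hcol.symm).resolve_left hx))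
    set s := x / y with hs
    have hz : ∀ i, z1 i = z3 i + s * (z2 i - z3 i) := fun i => by
      have := congrFun hcol i
      simp only [Pi.smul_apply, Pi.sub_apply, smul_eq_mul] at this
      rw [hs]; field_simp; linear_combination this
    have hs0 : s ≠ 0 := fun h => h13 (funext fun i => by rw [hz i, h]; ring)
    have hs1 : s - 1 ≠ 0 := fun h => h12 (funext fun i => by
      rw [hz i, sub_eq_zero.mp h]; ring)
    simp only [selL_apply] at s1 s2 s3
    rw [hz 0, hz 1, hz 2, hz 3] at s1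
    have key : s * (s - 1) * ((z2 2 - z3 2) ^ 2 - th * (z2 3 - z3 3) ^ 2) = 0 := by
      linear_combination s1 - s * s2 - (1 - s) * s3
    have key2 : (z2 2 - z3 2) ^ 2 - th * (z2 3 - z3 3) ^ 2 = 0 :=
      (mul_eq_zero.mp key).resolve_left (mul_ne_zero hs0 hs1)
    have e3 : z2 3 - z3 3 = 0 := by
      by_contra h3
      refine hth ⟨(z2 2 - z3 2) / (z2 3 - z3 3), ?_⟩
      field_simp
      linear_combination -key2
    have e2 : z2 2 - z3 2 = 0 := by
      rw [e3] at key2
      exact pow_eq_zero_iff (two_ne_zero) |>.mp (by linear_combination key2)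
    refine ⟨?_, ?_, sub_eq_zero.mp e2, sub_eq_zero.mp e3⟩
    · rw [hz 2, e2]; ring
    · rw [hz 3, e3]; ring

theorem thin_weight {α : Type} [DecidableEq α] (V T : Finset α) (hT : T ⊆ V) (θ : ℝ) :
    ∑ A ∈ V.powerset, ((∏ _i ∈ A, θ) * ∏ _i ∈ V \ A, (1 - θ)) * (if T ⊆ A then 1 else 0)
      = θ ^ T.card := by
  have h := Finset.prod_add (fun _ : α => θ) (fun i => if i ∈ T then 0 else 1 - θ) V
  have hl : ∏ i ∈ V, (θ + if i ∈ T then 0 else 1 - θ) = θ ^ T.card := by
    rw [Finset.prod_congr rfl (g := fun i => if i ∈ T then θ else 1)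
      (fun i _ => by split_ifs <;> ring), Finset.prod_ite_mem, Finset.inter_eq_right.mpr hT,
      Finset.prod_const]
  rw [← hl, h]
  refine Finset.sum_congr rfl fun A _ => ?_
  by_cases hA : T ⊆ A
  · rw [if_pos hA, mul_one]
    congr 1
    refine Finset.prod_congr rfl fun i hi => ?_
    rw [if_neg fun h => (Finset.mem_sdiff.mp hi).2 (hA h)]
  · rw [if_neg hA, mul_zero]
    obtain ⟨i, hi, hiA⟩ := Finset.not_subset.mp hA
    rw [Finset.prod_eq_zero (s := V \ A) (f := fun i => if i ∈ T then (0 : ℝ) else 1 - θ)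
      (Finset.mem_sdiff.mpr ⟨hT hi, hiA⟩) (if_pos hi), mul_zero]

theorem thin {α : Type} [DecidableEq α] (V : Finset α) (B : Finset (α × α × α))
    (hB : ∀ b ∈ B, b.1 ≠ b.2.1 ∧ b.1 ≠ b.2.2 ∧ b.2.1 ≠ b.2.2) (θ : ℝ) (h0 : 0 ≤ θ) (h1 : θ ≤ 1) :
    ∃ W ⊆ V, θ * V.card - θ ^ 3 * B.card ≤ W.card ∧
      ∀ b ∈ B, ¬ (b.1 ∈ W ∧ b.2.1 ∈ W ∧ b.2.2 ∈ W) := by
  set μ : Finset α → ℝ := fun A => (∏ _i ∈ A, θ) * ∏ _i ∈ V \ A, (1 - θ) with hμ
  have hμ0 : ∀ A, 0 ≤ μ A := fun A =>
    mul_nonneg (Finset.prod_nonneg fun _ _ => h0) (Finset.prod_nonneg fun _ _ => by linarith)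
  let tr : α × α × α → Finset α := fun b => {b.1, b.2.1, b.2.2}
  let Fn : Finset α → ℝ := fun A =>
    ∑ v ∈ V, (if ({v} : Finset α) ⊆ A then 1 else 0) - ∑ b ∈ B, (if tr b ⊆ A then 1 else 0)
  obtain ⟨A, hA, hmax⟩ := Finset.exists_max_image V.powerset Fn ⟨∅, by simp⟩
  have hsum1 : ∑ A ∈ V.powerset, μ A = 1 := by
    have := thin_weight V ∅ (by simp) θ
    simpa [hμ] using this
  have hav : θ * V.card - θ ^ 3 * B.card ≤ ∑ A ∈ V.powerset, μ A * Fn A := by
    simp only [Fn, mul_sub, Finset.mul_sum, Finset.sum_sub_distrib]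
    rw [Finset.sum_comm, Finset.sum_comm (s := V.powerset) (t := B)]
    have e1 : ∑ v ∈ V, ∑ A ∈ V.powerset, μ A * (if ({v} : Finset α) ⊆ A then 1 else 0)
        = θ * V.card := by
      rw [Finset.sum_congr rfl (g := fun _ => θ) fun v hv => by
        have := thin_weight V {v} (by simpa using hv) θ
        simpa [hμ] using this]
      simp [mul_comm]
    have e2 : ∑ b ∈ B, ∑ A ∈ V.powerset, μ A * (if tr b ⊆ A then 1 else 0) ≤ θ ^ 3 * B.card := by
      refine le_trans (Finset.sum_le_sum (g := fun _ => θ ^ 3) fun b hb => ?_) (by simp [mul_comm])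
      by_cases hT : tr b ⊆ V
      · have := thin_weight V (tr b) hT θ
        obtain ⟨a1, a2, a3⟩ := hB b hb
        rw [show (tr b).card = 3 from Finset.card_eq_three.mpr ⟨_, _, _, a1, a2, a3, rfl⟩] at this
        exact this.le
      · rw [Finset.sum_eq_zero fun A hA => by
          rw [if_neg fun h => hT (h.trans (Finset.mem_powerset.mp hA)), mul_zero]]
        positivity
    linarith
  have hle : ∑ A' ∈ V.powerset, μ A' * Fn A' ≤ Fn A := by
    calc _ ≤ ∑ A' ∈ V.powerset, μ A' * Fn A :=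
          Finset.sum_le_sum fun A' hA' => mul_le_mul_of_nonneg_left (hmax A' hA') (hμ0 A')
      _ = Fn A := by rw [← Finset.sum_mul, hsum1, one_mul]
  have hAV : A ⊆ V := Finset.mem_powerset.mp hA
  refine ⟨A \ (B.filter fun b => tr b ⊆ A).image (·.1), Finset.sdiff_subset.trans hAV, ?_, ?_⟩
  · have c1 : ∑ v ∈ V, (if ({v} : Finset α) ⊆ A then (1 : ℝ) else 0) = A.card := by
      simp only [Finset.singleton_subset_iff]
      rw [Finset.sum_ite_mem, Finset.inter_eq_right.mpr hAV]; simp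
    have c2 : ∑ b ∈ B, (if tr b ⊆ A then (1 : ℝ) else 0) = (B.filter fun b => tr b ⊆ A).card := by
      simp
    have c3 : A.card ≤ (A \ (B.filter fun b => tr b ⊆ A).image (·.1)).card +
        (B.filter fun b => tr b ⊆ A).card :=
      le_trans (Finset.card_le_card_sdiff_add_card) (Nat.add_le_add_left Finset.card_image_le _)
    have c4 : (A.card : ℝ) ≤ (A \ (B.filter fun b => tr b ⊆ A).image (·.1)).card +
        (B.filter fun b => tr b ⊆ A).card := by exact_mod_cast c3
    have c5 : Fn A = A.card - (B.filter fun b => tr b ⊆ A).card := by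
      simp only [Fn]; rw [c1, c2]
    linarith
  · rintro b hb ⟨w1, w2, w3⟩
    rw [Finset.mem_sdiff] at w1 w2 w3
    refine w1.2 (Finset.mem_image.mpr ⟨b, Finset.mem_filter.mpr ⟨hb, ?_⟩, rfl⟩)
    intro v hv
    simp only [tr, Finset.mem_insert, Finset.mem_singleton] at hv
    rcases hv with rfl | rfl | rfl
    exacts [w1.1, w2.1, w3.1]

end Crest.Agent.Heil
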