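import Crest.Agent.Heil.Fiber
import Crest.Agent.Heil.Lattice
import Crest.Agent.Heil.Select
import Crest.Agent.Heil.Design
set_option autoImplicit false
namespace Crest.Agent.Heil
open Finset

def act {M : ℕ} (g : Mat M) (a : ℤ × ℤ) : ℤ × ℤ :=
  ((g.1.val : ℤ) * a.1 + (g.2.1.val : ℤ) * a.2, (g.2.2.1.val : ℤ) * a.1 + (g.2.2.2.val : ℤ) * a.2)

def det (a b : ℤ × ℤ) : ℤ := a.1 * b.2 - a.2 * b.1

noncomputable def sq (L : ℕ) : Finset (ℤ × ℤ) := Ico (0 : ℤ) L ×ˢ Ico (0 : ℤ) L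

lemma mem_sq {L : ℕ} {u : ℤ × ℤ} : u ∈ sq L ↔ (0 ≤ u.1 ∧ u.1 < L) ∧ (0 ≤ u.2 ∧ u.2 < L) := by
  simp [sq]

lemma card_sq (L : ℕ) : (sq L).card = L ^ 2 := by simp [sq, pow_two]

/-- difference vector of two final points -/
def dv {M : ℕ} (g : Mat M) (a u : ℤ × ℤ) : ℤ × ℤ :=
  ((act g a).1 + M * u.1, (act g a).2 + M * u.2)

def Dep (M : ℕ) (a b u v : ℤ × ℤ) : Prop :=
  ∃ x y : ℤ, ¬ (x = 0 ∧ y = 0) ∧ |x| ≤ M ∧ |y| ≤ M ∧ y * a.1 = x * b.1 ∧ y * a.2 = x * b.2 ∧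
    y * u.1 = x * v.1 ∧ y * u.2 = x * v.2

lemma Dep.symm {M : ℕ} {a b u v : ℤ × ℤ} (h : Dep M a b u v) : Dep M b a v u := by
  obtain ⟨x, y, h0, h1, h2, h3, h4, h5, h6⟩ := h
  exact ⟨y, x, fun h => h0 ⟨h.2, h.1⟩, h2, h1, h3.symm, h4.symm, h5.symm, h6.symm⟩

lemma dv_cast1 {M : ℕ} [NeZero M] (g : Mat M) (a u : ℤ × ℤ) :
    (((dv g a u).1 : ℤ) : ZMod M) = g.1 * a.1 + g.2.1 * a.2 := by
  simp [dv, act]

lemma dv_cast2 {M : ℕ} [NeZero M] (g : Mat M) (a u : ℤ × ℤ) :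
    (((dv g a u).2 : ℤ) : ZMod M) = g.2.2.1 * a.1 + g.2.2.2 * a.2 := by
  simp [dv, act]

lemma det_dv_modEq {M : ℕ} [NeZero M] {g : Mat M} (hg : g ∈ G M) (a b u v : ℤ × ℤ) :
    (M : ℤ) ∣ det (dv g a u) (dv g b v) - det a b := by
  rw [← ZMod.intCast_zmod_eq_zero_iff_dvd]
  rw [mem_G] at hg
  simp only [det]
  push_cast
  rw [dv_cast1, dv_cast1, dv_cast2, dv_cast2]
  linear_combination ((a.1 : ZMod M) * b.2 - a.2 * b.1) * hg

lemma abs_lin_le {M Λ : ℕ} [NeZero M] (x y : ZMod M) (a1 a2 : ℤ) (h1 : |a1| ≤ Λ) (h2 : |a2| ≤ Λ) :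
    |(x.val : ℤ) * a1 + (y.val : ℤ) * a2| ≤ 2 * M * Λ := by
  have hx : (x.val : ℤ) ≤ M := by exact_mod_cast (ZMod.val_lt x).le
  have hy : (y.val : ℤ) ≤ M := by exact_mod_cast (ZMod.val_lt y).le
  calc _ ≤ |(x.val : ℤ) * a1| + |(y.val : ℤ) * a2| := abs_add_le _ _
    _ = x.val * |a1| + y.val * |a2| := by rw [abs_mul, abs_mul, Nat.abs_cast, Nat.abs_cast]
    _ ≤ M * Λ + M * Λ := by gcongr
    _ = _ := by ring

lemma abs_dv_le {M Λ L : ℕ} [NeZero M] (g : Mat M) (a u : ℤ × ℤ) (hL : 2 * Λ ≤ L)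
    (h1 : |a.1| ≤ Λ) (h2 : |a.2| ≤ Λ) (u1 : |u.1| ≤ L) (u2 : |u.2| ≤ L) :
    |(dv g a u).1| ≤ 2 * M * L ∧ |(dv g a u).2| ≤ 2 * M * L := by
  have hL' : (2 : ℤ) * Λ ≤ L := by exact_mod_cast hL
  have k : (2 : ℤ) * M * Λ ≤ M * L := by nlinarith [(Nat.cast_nonneg M : (0 : ℤ) ≤ M)]
  constructor
  · calc _ ≤ |(act g a).1| + |(M : ℤ) * u.1| := abs_add_le _ _
      _ ≤ 2 * M * Λ + M * L := by
        refine add_le_add (abs_lin_le _ _ _ _ h1 h2) ?_
        rw [abs_mul, Nat.abs_cast]; gcongr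
      _ ≤ _ := by linarith
  · calc _ ≤ |(act g a).2| + |(M : ℤ) * u.2| := abs_add_le _ _
      _ ≤ 2 * M * Λ + M * L := by
        refine add_le_add (abs_lin_le _ _ _ _ h1 h2) ?_
        rw [abs_mul, Nat.abs_cast]; gcongr
      _ ≤ _ := by linarith

/-- an exact small relation between the final differences is a relation upstairs -/
lemma dep_of_rel {M Λ h : ℕ} [NeZero M] {g : Mat M} (hg : g ∈ G M) (a b u v : ℤ × ℤ)
    (ha1 : |a.1| ≤ Λ) (ha2 : |a.2| ≤ Λ) (hb1 : |b.1| ≤ Λ) (hb2 : |b.2| ≤ Λ)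
    (x y : ℤ) (h0 : ¬ (x = 0 ∧ y = 0)) (hx : |x| ≤ h) (hy : |y| ≤ h) (hM : h ≤ M)
    (hsmall : 2 * h * Λ < M)
    (r1 : y * (dv g a u).1 = x * (dv g b v).1) (r2 : y * (dv g a u).2 = x * (dv g b v).2) :
    Dep M a b u v := by
  have hM0 : (0 : ℤ) < M := by exact_mod_cast Nat.pos_of_ne_zero (NeZero.ne M)
  rw [mem_G] at hg
  have c1 := congrArg (Int.cast : ℤ → ZMod M) r1
  have c2 := congrArg (Int.cast : ℤ → ZMod M) r2
  push_cast at c1 c2
  rw [dv_cast1, dv_cast1] at c1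
  rw [dv_cast2, dv_cast2] at c2
  have small : ∀ p q : ℤ, |p| ≤ Λ → |q| ≤ Λ → ((y * p - x * q : ℤ) : ZMod M) = 0 → y * p = x * q := by
    intro p q hp hq hz
    rw [ZMod.intCast_zmod_eq_zero_iff_dvd] at hz
    have : |y * p - x * q| < M := by
      calc _ ≤ |y * p| + |x * q| := abs_sub _ _
        _ = |y| * |p| + |x| * |q| := by simp [abs_mul]
        _ ≤ h * Λ + h * Λ := by gcongr
        _ = ((2 * h * Λ : ℕ) : ℤ) := by push_cast; ring
        _ < M := by exact_mod_cast hsmall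
    have := Int.eq_zero_of_abs_lt_dvd hz this
    linarith
  have e1 : y * a.1 = x * b.1 := by
    apply small _ _ ha1 hb1
    push_cast
    linear_combination (-((y : ZMod M) * a.1 - x * b.1)) * hg + g.2.2.2 * c1 - g.2.1 * c2
  have e2 : y * a.2 = x * b.2 := by
    apply small _ _ ha2 hb2
    push_cast
    linear_combination (-((y : ZMod M) * a.2 - x * b.2)) * hg - g.2.2.1 * c1 + g.1 * c2
  have hM' : (h : ℤ) ≤ M := by exact_mod_cast hM
  refine ⟨x, y, h0, hx.trans hM', hy.trans hM', e1, e2, ?_, ?_⟩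
  · apply mul_left_cancel₀ hM0.ne'
    simp only [dv, act] at r1
    linear_combination r1 - (g.1.val : ℤ) * e1 - (g.2.1.val : ℤ) * e2
  · apply mul_left_cancel₀ hM0.ne'
    simp only [dv, act] at r2
    linear_combination r2 - (g.2.2.1.val : ℤ) * e1 - (g.2.2.2.val : ℤ) * e2

open Classical in
/-- the set counted in the core estimate -/
noncomputable def coreSet (M L : ℕ) [NeZero M] (a b u3 : ℤ × ℤ) : Finset (Mat M × (ℤ × ℤ) × (ℤ × ℤ)) :=
  (G M ×ˢ (sq L ×ˢ sq L)).filter fun p =>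
    det (dv p.1 a (p.2.1 - u3)) (dv p.1 b (p.2.2 - u3)) = det a b ∧ ¬ Dep M a b (p.2.1 - u3) (p.2.2 - u3)

lemma sq_sub_abs {L : ℕ} {u w : ℤ × ℤ} (hu : u ∈ sq L) (hw : w ∈ sq L) :
    |(u - w).1| ≤ L ∧ |(u - w).2| ≤ L := by
  rw [mem_sq] at hu hw
  simp only [Prod.fst_sub, Prod.snd_sub, abs_le]
  omega

set_option maxHeartbeats 1000000 in
theorem core1 (M d M' L Λ : ℕ) [NeZero M] (hM : M = d * M') (hΛ : 0 < Λ) (hL : 2 * Λ ≤ L)
    (a b a' b' e : ℤ × ℤ)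
    (ha1 : |a.1| ≤ Λ) (ha2 : |a.2| ≤ Λ) (hb1 : |b.1| ≤ Λ) (hb2 : |b.2| ≤ Λ)
    (ca1 : (a.1 : ZMod M) = d * a'.1) (ca2 : (a.2 : ZMod M) = d * a'.2)
    (cb1 : (b.1 : ZMod M) = d * b'.1) (cb2 : (b.2 : ZMod M) = d * b'.2)
    (he : (a'.1 : ZMod M) * e.2 - a'.2 * e.1 = 1) (u3 : ℤ × ℤ) (hu3 : u3 ∈ sq L) :
    ((coreSet M L a b u3).card : ℝ) ≤
      200 * d * (2 * M * L : ℝ) ^ 2 * (1 + Real.log (4 * M * L)) +
        if det a b = 0 then 36 * (2 * M * L : ℝ) ^ 2 * Λ ^ 2 / M else 0 := by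
  classical
  have hM0 : 0 < M := Nat.pos_of_ne_zero (NeZero.ne M)
  have hd0 : 0 < d := Nat.pos_of_mul_pos_right (hM ▸ hM0) |> fun h => by
    rcases Nat.eq_zero_or_pos d with h | h
    · simp [h] at hM; omega
    · exact h
  have hM'0 : 0 < M' := by
    rcases Nat.eq_zero_or_pos M' with h | h
    · simp [h] at hM; omega
    · exact h
  have hL0 : 0 < L := by omega
  set t : ℤ := det a' b' with ht
  set lam : ℤ := det b' e with hlam
  set D : ℕ := Int.gcd t M' with hD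
  have hD0 : 0 < D := Int.gcd_pos_of_ne_zero_right _ (by exact_mod_cast hM'0.ne')
  have hDM' : (D : ℤ) ∣ M' := Int.gcd_dvd_right _ _
  have hDt : (D : ℤ) ∣ t := Int.gcd_dvd_left _ _
  have hDle : D ≤ M' := Nat.le_of_dvd hM'0 (by exact_mod_cast hDM')
  set N' : ℕ := 2 * M' * L with hN'
  have hDN : D ≤ N' := by rw [hN']; nlinarith
  obtain ⟨x0, y0, h, hh0, hhD, hx0, hy0, hxy, hcount⟩ := lattice D hD0 lam
  obtain ⟨hc1, hc2⟩ := hcount N' (det a b / (d : ℤ) ^ 2) hDN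
  set T1 := (box N').filter fun v => (D : ℤ) ∣ v.2.1 - lam * v.1.1 ∧ (D : ℤ) ∣ v.2.2 - lam * v.1.2 ∧
            v.1.1 * v.2.2 - v.1.2 * v.2.1 = det a b / (d : ℤ) ^ 2 ∧
            ¬ (y0 * v.1.1 = x0 * v.2.1 ∧ y0 * v.1.2 = x0 * v.2.2) with hT1
  set T2 := (box N').filter fun v => (D : ℤ) ∣ v.2.1 - lam * v.1.1 ∧ (D : ℤ) ∣ v.2.2 - lam * v.1.2 ∧
            (y0 * v.1.1 = x0 * v.2.1 ∧ y0 * v.1.2 = x0 * v.2.2) with hT2
  set T := T1 ∪ (if det a b = 0 ∧ M ≤ 2 * h * Λ then T2 else ∅) with hT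
  have hhM : h ≤ M := by
    have : h ≤ h ^ 2 := by nlinarith
    have : M' ≤ M := by rw [hM]; nlinarith
    omega
  -- b' in the basis
  have hb'1 : (b'.1 : ZMod M) = lam * a'.1 + t * e.1 := by
    simp only [hlam, ht, det]; push_cast; linear_combination (-(b'.1 : ZMod M)) * he
  have hb'2 : (b'.2 : ZMod M) = lam * a'.2 + t * e.2 := by
    simp only [hlam, ht, det]; push_cast; linear_combination (-(b'.2 : ZMod M)) * he
  -- integer divisibility extraction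
  have divd : ∀ (z w : ℤ), (z : ZMod M) = d * (w : ZMod M) → (d : ℤ) ∣ z ∧ (M' : ℤ) ∣ z / d - w := by
    intro z w hz
    have h1 : ((z - d * w : ℤ) : ZMod M) = 0 := by push_cast; rw [hz]; ring
    rw [ZMod.intCast_zmod_eq_zero_iff_dvd] at h1
    obtain ⟨k, hk⟩ := h1
    have hz' : z = d * (w + M' * k) := by rw [hM] at hk; push_cast at hk; linear_combination hk
    refine ⟨⟨_, hz'⟩, ?_⟩
    rw [hz', Int.mul_ediv_cancel_left _ (by exact_mod_cast hd0.ne')]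
    exact ⟨k, by ring⟩
  let f : Mat M × (ℤ × ℤ) × (ℤ × ℤ) → (ℤ × ℤ) × (ℤ × ℤ) := fun p =>
    (((dv p.1 a (p.2.1 - u3)).1 / d, (dv p.1 a (p.2.1 - u3)).2 / d),
     ((dv p.1 b (p.2.2 - u3)).1 / d, (dv p.1 b (p.2.2 - u3)).2 / d))
  have hdiv : ∀ (g : Mat M) (u v : ℤ × ℤ),
      ((d : ℤ) ∣ (dv g a u).1 ∧ (M' : ℤ) ∣ (dv g a u).1 / d - (act g a').1) ∧
      ((d : ℤ) ∣ (dv g a u).2 ∧ (M' : ℤ) ∣ (dv g a u).2 / d - (act g a').2) ∧
      ((d : ℤ) ∣ (dv g b v).1 ∧ (M' : ℤ) ∣ (dv g b v).1 / d - (lam * (act g a').1 + t * (act g e).1)) ∧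
      ((d : ℤ) ∣ (dv g b v).2 ∧ (M' : ℤ) ∣ (dv g b v).2 / d - (lam * (act g a').2 + t * (act g e).2)) := by
    intro g u v
    refine ⟨divd _ _ ?_, divd _ _ ?_, divd _ _ ?_, divd _ _ ?_⟩
    · rw [dv_cast1, ca1, ca2]; simp [act]; ring
    · rw [dv_cast2, ca1, ca2]; simp [act]; ring
    · rw [dv_cast1, cb1, cb2, hb'1, hb'2]; simp [act]; ring
    · rw [dv_cast2, cb1, cb2, hb'1, hb'2]; simp [act]; ring
  have hdz : (0 : ℤ) < d := by exact_mod_cast hd0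
  have hmaps : ∀ p ∈ coreSet M L a b u3, f p ∈ T := by
    intro p hp
    simp only [coreSet, mem_filter, mem_product] at hp
    obtain ⟨⟨hg, hu1, hu2⟩, hdet, hdep⟩ := hp
    obtain ⟨⟨⟨α1, hα1⟩, mα1⟩, ⟨⟨α2, hα2⟩, mα2⟩, ⟨⟨β1, hβ1⟩, mβ1⟩, ⟨⟨β2, hβ2⟩, mβ2⟩⟩ :=
      hdiv p.1 (p.2.1 - u3) (p.2.2 - u3)
    have fp : f p = ((α1, α2), (β1, β2)) := by
      simp only [f, hα1, hα2, hβ1, hβ2, Int.mul_ediv_cancel_left _ hdz.ne']
    rw [hα1, Int.mul_ediv_cancel_left _ hdz.ne'] at mα1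
    rw [hα2, Int.mul_ediv_cancel_left _ hdz.ne'] at mα2
    rw [hβ1, Int.mul_ediv_cancel_left _ hdz.ne'] at mβ1
    rw [hβ2, Int.mul_ediv_cancel_left _ hdz.ne'] at mβ2
    have bA := abs_dv_le p.1 a (p.2.1 - u3) hL ha1 ha2 (sq_sub_abs hu1 hu3).1 (sq_sub_abs hu1 hu3).2
    have bB := abs_dv_le p.1 b (p.2.2 - u3) hL hb1 hb2 (sq_sub_abs hu2 hu3).1 (sq_sub_abs hu2 hu3).2
    have bnd : ∀ z : ℤ, |d * z| ≤ 2 * M * L → z ∈ Icc (-(N' : ℤ)) N' := by
      intro z hz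
      rw [abs_mul, Nat.abs_cast, hM] at hz
      have : |z| ≤ N' := by
        apply le_of_mul_le_mul_left _ hdz
        rw [hN']; push_cast at hz ⊢; linarith
      rw [mem_Icc]; exact abs_le.mp this
    have hbox : ((α1, α2), (β1, β2)) ∈ box N' := by
      simp only [box, mem_product]
      exact ⟨⟨bnd _ (hα1 ▸ bA.1), bnd _ (hα2 ▸ bA.2)⟩, ⟨bnd _ (hβ1 ▸ bB.1), bnd _ (hβ2 ▸ bB.2)⟩⟩
    have g1 : (D : ℤ) ∣ β1 - lam * α1 := by
      have := ((hDM'.trans mβ1).sub ((hDM'.trans mα1).mul_left lam)).add (hDt.mul_right (act p.1 e).1)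
      have e3 : β1 - lam * α1 = β1 - (lam * (act p.1 a').1 + t * (act p.1 e).1) -
        lam * (α1 - (act p.1 a').1) + t * (act p.1 e).1 := by ring
      rw [e3]; exact this
    have g2 : (D : ℤ) ∣ β2 - lam * α2 := by
      have := ((hDM'.trans mβ2).sub ((hDM'.trans mα2).mul_left lam)).add (hDt.mul_right (act p.1 e).2)
      have e3 : β2 - lam * α2 = β2 - (lam * (act p.1 a').2 + t * (act p.1 e).2) -
        lam * (α2 - (act p.1 a').2) + t * (act p.1 e).2 := by ring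
      rw [e3]; exact this
    have hdet' : det a b = (d : ℤ) ^ 2 * (α1 * β2 - α2 * β1) := by
      rw [← hdet]; simp only [det]; rw [hα1, hα2, hβ1, hβ2]; ring
    rw [fp, hT, mem_union]
    by_cases hs : y0 * α1 = x0 * β1 ∧ y0 * α2 = x0 * β2
    · right
      have hz : α1 * β2 - α2 * β1 = 0 := by
        by_cases hx : x0 = 0
        · have hy : y0 ≠ 0 := fun hy => hxy ⟨hx, hy⟩
          apply mul_left_cancel₀ hy
          linear_combination β2 * hs.1 - β1 * hs.2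
        · apply mul_left_cancel₀ hx
          linear_combination α2 * hs.1 - α1 * hs.2
      have hbig : M ≤ 2 * h * Λ := by
        by_contra hlt
        push Not at hlt
        apply hdep
        apply dep_of_rel hg a b _ _ ha1 ha2 hb1 hb2 x0 y0 hxy hx0 hy0 hhM hlt
        · rw [hα1, hβ1]; linear_combination (d : ℤ) * hs.1
        · rw [hα2, hβ2]; linear_combination (d : ℤ) * hs.2
      rw [if_pos ⟨by rw [hdet', hz, mul_zero], hbig⟩, hT2, mem_filter]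
      exact ⟨hbox, g1, g2, hs⟩
    · left
      rw [hT1, mem_filter]
      refine ⟨hbox, g1, g2, ?_, hs⟩
      rw [hdet', Int.mul_ediv_cancel_left _ (by positivity)]
  have hfib : ∀ v ∈ T, ((coreSet M L a b u3).filter fun p => f p = v).card ≤ (d * D) * (d * d) := by
    intro v _
    have hF := fiber M d lam t a'.1 a'.2 e.1 e.2 (d * v.1.1) (d * v.1.2) (d * v.2.1) (d * v.2.2) he
    have hA : ann M (d : ZMod M) ≤ d := by
      have := ann_le M (d : ℤ)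
      rw [Int.cast_natCast, Int.gcd_natCast_natCast] at this
      exact this.trans (Nat.gcd_le_left _ hd0)
    have hB : ann M ((d : ZMod M) * t) ≤ d * D := by
      have := ann_le M ((d : ℤ) * t)
      have e2 : Int.gcd ((d : ℤ) * t) M = d * D := by
        rw [hM]; push_cast; rw [Int.gcd_mul_left]; simp [hD]
      rw [e2] at this
      simpa using this
    refine le_trans ?_ (hF.trans (Nat.mul_le_mul hB (Nat.mul_le_mul hA hA)))
    have val : ∀ p ∈ (coreSet M L a b u3).filter fun p => f p = v,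
        (dv p.1 a (p.2.1 - u3)).1 = d * v.1.1 ∧ (dv p.1 a (p.2.1 - u3)).2 = d * v.1.2 ∧
        (dv p.1 b (p.2.2 - u3)).1 = d * v.2.1 ∧ (dv p.1 b (p.2.2 - u3)).2 = d * v.2.2 := by
      intro p hp
      rw [mem_filter] at hp
      obtain ⟨⟨h1, -⟩, ⟨h2, -⟩, ⟨h3, -⟩, ⟨h4, -⟩⟩ := hdiv p.1 (p.2.1 - u3) (p.2.2 - u3)
      rw [← hp.2]
      simp only [f]
      exact ⟨(Int.mul_ediv_cancel' h1).symm, (Int.mul_ediv_cancel' h2).symm,
        (Int.mul_ediv_cancel' h3).symm, (Int.mul_ediv_cancel' h4).symm⟩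
    apply card_le_card_of_injOn (fun p => p.1)
    · intro p hp
      obtain ⟨h1, h2, h3, h4⟩ := val p hp
      simp only [coe_filter, coreSet, mem_filter, mem_product, Set.mem_ofPred_eq] at hp ⊢
      have c1 := congrArg (Int.cast : ℤ → ZMod M) h1
      have c2 := congrArg (Int.cast : ℤ → ZMod M) h2
      have c3 := congrArg (Int.cast : ℤ → ZMod M) h3
      have c4 := congrArg (Int.cast : ℤ → ZMod M) h4
      rw [dv_cast1, ca1, ca2] at c1
      rw [dv_cast2, ca1, ca2] at c2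
      rw [dv_cast1, cb1, cb2, hb'1, hb'2] at c3
      rw [dv_cast2, cb1, cb2, hb'1, hb'2] at c4
      push_cast at c1 c2 c3 c4
      refine ⟨hp.1.1.1, ?_, ?_, ?_, ?_⟩
      · linear_combination c1
      · linear_combination c2
      · linear_combination c3
      · linear_combination c4
    · intro p hp q hq hpq
      obtain ⟨h1, h2, h3, h4⟩ := val p hp
      obtain ⟨k1, k2, k3, k4⟩ := val q hq
      simp only at hpq
      have hMz : (M : ℤ) ≠ 0 := by exact_mod_cast hM0.ne'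
      simp only [dv, ← hpq, Prod.fst_sub, Prod.snd_sub] at h1 h2 h3 h4 k1 k2 k3 k4
      refine Prod.ext hpq (Prod.ext (Prod.ext ?_ ?_) (Prod.ext ?_ ?_))
      · apply mul_left_cancel₀ hMz; linear_combination h1 - k1
      · apply mul_left_cancel₀ hMz; linear_combination h2 - k2
      · apply mul_left_cancel₀ hMz; linear_combination h3 - k3
      · apply mul_left_cancel₀ hMz; linear_combination h4 - k4
  have hmain := card_le_mul_card_image_of_maps_to hmaps _ hfib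
  have hTc : (T.card : ℝ) ≤ T1.card + if det a b = 0 ∧ M ≤ 2 * h * Λ then (T2.card : ℝ) else 0 := by
    have := card_union_le T1 (if det a b = 0 ∧ M ≤ 2 * h * Λ then T2 else ∅)
    have h2 : (T.card : ℝ) ≤ T1.card + ((if det a b = 0 ∧ M ≤ 2 * h * Λ then T2 else ∅).card : ℝ) := by
      exact_mod_cast this
    refine h2.trans (le_of_eq ?_)
    split_ifs <;> simp
  have hdR : (0 : ℝ) < d := by exact_mod_cast hd0
  have hDR : (0 : ℝ) < D := by exact_mod_cast hD0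
  have hM'R : (0 : ℝ) < M' := by exact_mod_cast hM'0
  have hLR : (0 : ℝ) < L := by exact_mod_cast hL0
  have hhR : (0 : ℝ) < h := by exact_mod_cast hh0
  have hMR : (M : ℝ) = d * M' := by exact_mod_cast hM
  have hN'R : (N' : ℝ) = 2 * M' * L := by rw [hN']; push_cast; ring
  have hd1 : (1 : ℝ) ≤ d := by exact_mod_cast hd0
  have hlog : Real.log (2 * N') ≤ Real.log (4 * M * L) := by
    apply Real.log_le_log (by rw [hN'R]; positivity)
    rw [hN'R, hMR]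
    have : (M' : ℝ) * L ≤ d * (M' * L) := le_mul_of_one_le_left (by positivity) hd1
    linarith
  have hlog0 : 0 ≤ Real.log (2 * N') := by
    apply Real.log_nonneg
    have : (1 : ℝ) ≤ N' := by exact_mod_cast (hD0.trans_le hDN)
    linarith
  calc ((coreSet M L a b u3).card : ℝ) ≤ ((d * D) * (d * d) : ℝ) * T.card := by exact_mod_cast hmain
    _ ≤ ((d * D) * (d * d) : ℝ) * (T1.card + if det a b = 0 ∧ M ≤ 2 * h * Λ then (T2.card : ℝ) else 0) := by
        gcongr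
    _ = ((d * D) * (d * d) : ℝ) * T1.card +
        ((d * D) * (d * d) : ℝ) * (if det a b = 0 ∧ M ≤ 2 * h * Λ then (T2.card : ℝ) else 0) := by ring
    _ ≤ _ := by
      apply add_le_add
      · calc ((d * D) * (d * d) : ℝ) * T1.card
            ≤ ((d * D) * (d * d) : ℝ) * (200 * (N' : ℝ) ^ 2 * (1 + Real.log (2 * N')) / D) := by gcongr
          _ = 200 * d * (2 * M * L : ℝ) ^ 2 * (1 + Real.log (2 * N')) := by
            rw [hMR]; nth_rewrite 1 [hN'R]; field_simp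
          _ ≤ _ := by gcongr
      · split_ifs with h1 h2 h2
        · have hb : (M : ℝ) ≤ 2 * h * Λ := by exact_mod_cast h1.2
          have hDle' : (D : ℝ) ≤ M' := by exact_mod_cast hDle
          have hMR0 : (0 : ℝ) < M := by exact_mod_cast hM0
          calc ((d * D) * (d * d) : ℝ) * T2.card
              ≤ ((d * M') * (d * d) : ℝ) * (9 * (N' : ℝ) ^ 2 / (h : ℝ) ^ 2) := by gcongr
            _ = 9 * (2 * M * L : ℝ) ^ 2 * M / (h : ℝ) ^ 2 := by rw [hN'R, hMR]; field_simp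
            _ ≤ 36 * (2 * M * L : ℝ) ^ 2 * Λ ^ 2 / M := by
              rw [div_le_div_iff₀ (by positivity) hMR0]
              have : (M : ℝ) * M ≤ (2 * h * Λ) * (2 * h * Λ) := by gcongr
              have h9 : (0 : ℝ) ≤ 9 * (2 * M * L : ℝ) ^ 2 := by positivity
              nlinarith [mul_le_mul_of_nonneg_left this h9]
        · exact absurd h1.1 h2
        · simp only [mul_zero]; positivity
        · simp

end Crest.Agent.Heil
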