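import Mathlib
set_option autoImplicit false
namespace Crest.Agent.Heil
open Finset

abbrev Mat (M : ℕ) := ZMod M × ZMod M × ZMod M × ZMod M

def G (M : ℕ) [NeZero M] : Finset (Mat M) :=
  univ.filter fun g => g.1 * g.2.2.2 - g.2.1 * g.2.2.1 = 1

lemma mem_G {M : ℕ} [NeZero M] {g : Mat M} : g ∈ G M ↔ g.1 * g.2.2.2 - g.2.1 * g.2.2.1 = 1 := by
  simp [G]

lemma card_G (m : ℕ) : (2 ^ m) ^ 3 ≤ 2 * (G (2 ^ m)).card := by
  set M := 2 ^ m with hM
  have h1 : Nat.totient M * (M * M) ≤ (G M).card := by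
    have : (univ : Finset ((ZMod M)ˣ × ZMod M × ZMod M)).card ≤ (G M).card := by
      apply card_le_card_of_injOn
        (fun q => ((q.1 : ZMod M), q.2.1, q.2.2, (1 + q.2.1 * q.2.2) * ((q.1⁻¹ : (ZMod M)ˣ) : ZMod M)))
      · intro q _
        simp only [coe_filter, G, mem_univ, true_and, Set.mem_ofPred_eq]
        have : (q.1 : ZMod M) * ((q.1⁻¹ : (ZMod M)ˣ) : ZMod M) = 1 := by simp
        linear_combination (1 + q.2.1 * q.2.2) * this
      · intro q _ q' _ h
        simp only [Prod.mk.injEq] at h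
        obtain ⟨h1, h2, h3, -⟩ := h
        exact Prod.ext (Units.ext h1) (Prod.ext h2 h3)
    simpa [ZMod.card_units_eq_totient] using this
  have h2 : M ≤ 2 * Nat.totient M := by
    rcases m with _ | k
    · simp [hM]
    · rw [hM, Nat.totient_prime_pow_succ Nat.prime_two]; simp [pow_succ]; omega
  calc M ^ 3 = M * (M * M) := by ring
    _ ≤ 2 * Nat.totient M * (M * M) := Nat.mul_le_mul_right _ h2
    _ = 2 * (Nat.totient M * (M * M)) := by ring
    _ ≤ _ := Nat.mul_le_mul_left _ h1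

/-- annihilator count -/
def ann (M : ℕ) [NeZero M] (c : ZMod M) : ℕ := (univ.filter fun x : ZMod M => c * x = 0).card

lemma ann_le (M : ℕ) [NeZero M] (c : ℤ) : ann M (c : ZMod M) ≤ Int.gcd c M := by
  have hM : 0 < M := Nat.pos_of_ne_zero (NeZero.ne M)
  set e := Int.gcd c M with he
  have he0 : 0 < e := Int.gcd_pos_of_ne_zero_right _ (by exact_mod_cast hM.ne')
  obtain ⟨c', M', hcop, hc, hM'⟩ := Int.exists_gcd_one he0
  rw [← he] at hc hM'
  have hM'pos : 0 < M' := by
    by_contra h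
    push Not at h
    have : (M : ℤ) ≤ 0 := by rw [hM']; exact mul_nonpos_of_nonpos_of_nonneg h (by positivity)
    omega
  unfold ann
  have key : ∀ x : ZMod M, (c : ZMod M) * x = 0 → M' ∣ (x.val : ℤ) := by
    intro x hx
    have h1 : ((c * (x.val : ℤ) : ℤ) : ZMod M) = 0 := by push_cast; simpa using hx
    rw [ZMod.intCast_zmod_eq_zero_iff_dvd] at h1
    rw [hM', hc] at h1
    have h2 : M' * e ∣ (c' * (x.val : ℤ)) * e := by convert h1 using 1; ring
    have h3 : M' ∣ c' * (x.val : ℤ) := Int.dvd_of_mul_dvd_mul_right (by exact_mod_cast he0.ne') h2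
    exact (Int.isCoprime_iff_gcd_eq_one.mpr hcop).symm.dvd_of_dvd_mul_left h3
  calc (univ.filter fun x : ZMod M => (c : ZMod M) * x = 0).card ≤ (Ico (0 : ℤ) e).card := by
        apply card_le_card_of_injOn (fun x => (x.val : ℤ) / M')
        · intro x hx
          simp only [coe_Ico, Set.mem_Ico]
          refine ⟨Int.ediv_nonneg (by positivity) hM'pos.le, ?_⟩
          apply Int.ediv_lt_of_lt_mul hM'pos
          have : x.val < M := ZMod.val_lt x
          have h2 : (x.val : ℤ) < M := by exact_mod_cast this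
          rw [hM'] at h2; linarith [mul_comm M' (e : ℤ)]
        · intro x hx y hy hxy
          simp only [coe_filter, mem_univ, true_and, Set.mem_ofPred_eq] at hx hy
          have h1 := Int.ediv_mul_cancel (key x hx)
          have h2 := Int.ediv_mul_cancel (key y hy)
          simp only at hxy
          have : (x.val : ℤ) = y.val := by rw [← h1, ← h2, hxy]
          exact ZMod.val_injective M (by exact_mod_cast this)
    _ = e := by simp

lemma sol_le (M : ℕ) [NeZero M] (d α : ZMod M) :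
    (univ.filter fun x : ZMod M => d * x = α).card ≤ ann M d := by
  rcases (univ.filter fun x : ZMod M => d * x = α).eq_empty_or_nonempty with h | ⟨x0, hx0⟩
  · simp [h]
  · simp only [mem_filter, mem_univ, true_and] at hx0
    unfold ann
    apply card_le_card_of_injOn (fun x => x - x0)
    · intro x hx
      simp only [coe_filter, mem_univ, true_and, Set.mem_ofPred_eq] at hx ⊢
      rw [mul_sub, hx, hx0, sub_self]
    · intro x _ y _ h
      exact sub_left_injective h

lemma fiber (M : ℕ) [NeZero M] (d lam t a1 a2 e1 e2 α1 α2 β1 β2 : ZMod M)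
    (h : a1 * e2 - a2 * e1 = 1) :
    ((G M).filter fun g => d * (g.1 * a1 + g.2.1 * a2) = α1 ∧ d * (g.2.2.1 * a1 + g.2.2.2 * a2) = α2 ∧
      d * (lam * (g.1 * a1 + g.2.1 * a2) + t * (g.1 * e1 + g.2.1 * e2)) = β1 ∧
      d * (lam * (g.2.2.1 * a1 + g.2.2.2 * a2) + t * (g.2.2.1 * e1 + g.2.2.2 * e2)) = β2).card
      ≤ ann M (d * t) * (ann M d * ann M d) := by
  set s := (G M).filter fun g => d * (g.1 * a1 + g.2.1 * a2) = α1 ∧
      d * (g.2.2.1 * a1 + g.2.2.2 * a2) = α2 ∧
      d * (lam * (g.1 * a1 + g.2.1 * a2) + t * (g.1 * e1 + g.2.1 * e2)) = β1 ∧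
      d * (lam * (g.2.2.1 * a1 + g.2.2.2 * a2) + t * (g.2.2.1 * e1 + g.2.2.2 * e2)) = β2 with hs
  have h1 := card_le_mul_card_image_of_maps_to (s := s)
    (t := (univ.filter fun x : ZMod M => d * x = α1) ×ˢ (univ.filter fun x : ZMod M => d * x = α2))
    (f := fun g => (g.1 * a1 + g.2.1 * a2, g.2.2.1 * a1 + g.2.2.2 * a2))
    (by
      intro g hg
      simp only [hs, mem_filter] at hg
      simp [hg.2.1, hg.2.2.1]) (ann M (d * t))
    (by
      intro c _
      rcases (s.filter fun g => (g.1 * a1 + g.2.1 * a2, g.2.2.1 * a1 + g.2.2.2 * a2) = c).eq_empty_or_nonempty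
        with h0 | ⟨k, hk⟩
      · simp [h0]
      · simp only [hs, mem_filter, mem_G] at hk
        obtain ⟨⟨hkd, -, -, hk3, hk4⟩, hkc⟩ := hk
        have hkc1 : k.1 * a1 + k.2.1 * a2 = c.1 := by rw [← hkc]
        have hkc2 : k.2.2.1 * a1 + k.2.2.2 * a2 = c.2 := by rw [← hkc]
        unfold ann
        apply card_le_card_of_injOn (fun g =>
          ((g.1 * e1 + g.2.1 * e2) - (k.1 * e1 + k.2.1 * e2)) * (k.2.2.1 * e1 + k.2.2.2 * e2) -
          ((g.2.2.1 * e1 + g.2.2.2 * e2) - (k.2.2.1 * e1 + k.2.2.2 * e2)) * (k.1 * e1 + k.2.1 * e2))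
        · intro g hg
          simp only [hs, coe_filter, mem_filter, mem_G, Set.mem_ofPred_eq, mem_univ, true_and] at hg ⊢
          obtain ⟨⟨hgd, -, -, hg3, hg4⟩, hgc⟩ := hg
          have hgc1 : g.1 * a1 + g.2.1 * a2 = c.1 := by rw [← hgc]
          have hgc2 : g.2.2.1 * a1 + g.2.2.2 * a2 = c.2 := by rw [← hgc]
          rw [hgc1] at hg3; rw [hgc2] at hg4; rw [hkc1] at hk3; rw [hkc2] at hk4
          linear_combination (k.2.2.1 * e1 + k.2.2.2 * e2) * (hg3 - hk3) -
            (k.1 * e1 + k.2.1 * e2) * (hg4 - hk4)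
        · intro g hg g' hg' hx
          simp only [hs, coe_filter, mem_filter, mem_G, Set.mem_ofPred_eq] at hg hg' hx
          obtain ⟨⟨hgd, -, -, -, -⟩, hgc⟩ := hg
          obtain ⟨⟨hgd', -, -, -, -⟩, hgc'⟩ := hg'
          have hgc1 : g.1 * a1 + g.2.1 * a2 = c.1 := by rw [← hgc]
          have hgc2 : g.2.2.1 * a1 + g.2.2.2 * a2 = c.2 := by rw [← hgc]
          have hgc1' : g'.1 * a1 + g'.2.1 * a2 = c.1 := by rw [← hgc']
          have hgc2' : g'.2.2.1 * a1 + g'.2.2.2 * a2 = c.2 := by rw [← hgc']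
          -- second columns
          set p1 := g.1 * e1 + g.2.1 * e2 with hp1
          set p2 := g.2.2.1 * e1 + g.2.2.2 * e2 with hp2
          set q1 := g'.1 * e1 + g'.2.1 * e2 with hq1
          set q2 := g'.2.2.1 * e1 + g'.2.2.2 * e2 with hq2
          set k1 := k.1 * e1 + k.2.1 * e2 with hk1
          set k2 := k.2.2.1 * e1 + k.2.2.2 * e2 with hk2
          have dp : c.1 * p2 - c.2 * p1 = 1 := by
            rw [← hgc1, ← hgc2, hp1, hp2]; linear_combination (a1 * e2 - a2 * e1) * hgd + h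
          have dq : c.1 * q2 - c.2 * q1 = 1 := by
            rw [← hgc1', ← hgc2', hq1, hq2]; linear_combination (a1 * e2 - a2 * e1) * hgd' + h
          have dk : c.1 * k2 - c.2 * k1 = 1 := by
            rw [← hkc1, ← hkc2, hk1, hk2]; linear_combination (a1 * e2 - a2 * e1) * hkd + h
          have e1' : p1 = q1 := by
            linear_combination (-(p1 - q1)) * dk + c.1 * hx + k1 * (dp - dq)
          have e2' : p2 = q2 := by
            linear_combination (-(p2 - q2)) * dk + c.2 * hx + k2 * (dp - dq)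
          refine Prod.ext ?_ (Prod.ext ?_ (Prod.ext ?_ ?_))
          · linear_combination (-(g.1 - g'.1)) * h + e2 * (hgc1 - hgc1') - a2 * (e1' - hp1 + hq1)
          · linear_combination (-(g.2.1 - g'.2.1)) * h - e1 * (hgc1 - hgc1') + a1 * (e1' - hp1 + hq1)
          · linear_combination (-(g.2.2.1 - g'.2.2.1)) * h + e2 * (hgc2 - hgc2') - a2 * (e2' - hp2 + hq2)
          · linear_combination (-(g.2.2.2 - g'.2.2.2)) * h - e1 * (hgc2 - hgc2') + a1 * (e2' - hp2 + hq2))
  refine h1.trans ?_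
  rw [card_product]
  exact Nat.mul_le_mul_left _ (Nat.mul_le_mul (sol_le M d α1) (sol_le M d α2))

end Crest.Agent.Heil
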