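import Crest.Agent.Heil.Sum
set_option autoImplicit false
namespace Crest.Agent.Heil
open Finset

abbrev PT (S : Type) := S × (ℤ × ℤ) × (ℤ × ℤ)

noncomputable def Pt (S : Type) [Fintype S] (Q L : ℕ) : Finset (PT S) := univ ×ˢ (sq Q ×ˢ sq L)

lemma mem_Pt {S : Type} [Fintype S] {Q L : ℕ} {π : PT S} :
    π ∈ Pt S Q L ↔ π.2.1 ∈ sq Q ∧ π.2.2 ∈ sq L := by simp [Pt]

lemma card_Pt (S : Type) [Fintype S] (Q L : ℕ) :
    (Pt S Q L).card = Fintype.card S * (Q ^ 2 * L ^ 2) := by simp [Pt, card_sq]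

def low {S : Type} (c : S → ℤ × ℤ) (π : PT S) : ℤ × ℤ := π.2.1 + c π.1

def pos {S : Type} {M : ℕ} (c : S → ℤ × ℤ) (g : Mat M) (π : PT S) : ℤ × ℤ := dv g (low c π) π.2.2

def zz {S : Type} (l : ℕ) (c : S → ℤ × ℤ) (π : PT S) : Fin 4 → ZMod l :=
  ![((low c π).1 : ZMod l), ((low c π).2 : ZMod l), (π.2.2.1 : ZMod l), (π.2.2.2 : ZMod l)]

lemma dv_sub {M : ℕ} (g : Mat M) (a b u v : ℤ × ℤ) : dv g a u - dv g b v = dv g (a - b) (u - v) := by
  ext <;> simp [dv, act] <;> ring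

lemma cast_inj_of_lt {l : ℕ} {x y : ℤ} (hx0 : 0 ≤ x) (hx : x < l) (hy0 : 0 ≤ y) (hy : y < l)
    (h : (x : ZMod l) = y) : x = y := by
  rw [ZMod.intCast_eq_intCast_iff_dvd_sub] at h
  have := Int.eq_zero_of_abs_lt_dvd h (by rw [abs_lt]; omega)
  omega

lemma cast_ne_of_abs {l : ℕ} {x : ℤ} (hx : |x| < l) (h : (x : ZMod l) = 0) : x = 0 := by
  rw [ZMod.intCast_zmod_eq_zero_iff_dvd] at h
  exact Int.eq_zero_of_abs_lt_dvd h hx

section
variable {S : Type} [Fintype S] [DecidableEq S]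

open Classical in
noncomputable def Bad (M Q L T : ℕ) (c : S → ℤ × ℤ) (g : Mat M) : Finset (PT S × PT S × PT S) :=
  (Pt S Q L ×ˢ Pt S Q L ×ˢ Pt S Q L).filter fun b =>
    (b.1 ≠ b.2.1 ∧ b.1 ≠ b.2.2 ∧ b.2.1 ≠ b.2.2) ∧ b.2.1.1 = b.2.2.1 ∧
      |det (pos c g b.1 - pos c g b.2.2) (pos c g b.2.1 - pos c g b.2.2)| ≤ T

def Indep (l : ℕ) (c : S → ℤ × ℤ) (b : PT S × PT S × PT S) : Prop :=
  ∀ x y : ZMod l, y • (zz l c b.1 - zz l c b.2.2) = x • (zz l c b.2.1 - zz l c b.2.2) → x = 0 ∧ y = 0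

set_option maxHeartbeats 1000000 in
open Classical in
lemma count_indep (m L Λ Q T l : ℕ) (c : S → ℤ × ℤ) (hΛ : 0 < Λ) (hL : 2 * Λ ≤ L) (hQ0 : 0 < Q)
    (hQ : 2 ^ m ≤ Q ^ 4) (hΛQ : Λ ^ 2 ≤ Q * 2 ^ m) (hQΛ : Q ≤ Λ)
    (hrange : ∀ x, ∀ r ∈ sq Q, r + c x ∈ sq Λ) (hsmall : T + 2 * Q * Λ < 2 ^ m) (hl : 2 ^ m < l) :
    ∑ g ∈ G (2 ^ m), (((Bad (2 ^ m) Q L T c g).filter (Indep l c)).card : ℝ) ≤
      (Fintype.card S : ℝ) ^ 2 * Q ^ 2 * L ^ 2 *
      (6500 * (Q : ℝ) ^ 4 * (2 * (2 ^ m : ℕ) * L : ℝ) ^ 2 * (1 + Real.log (4 * (2 ^ m : ℕ) * L))) := by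
  set M := 2 ^ m with hM
  let X : Finset (Mat M × (PT S × PT S × PT S)) :=
    (G M ×ˢ (Pt S Q L ×ˢ Pt S Q L ×ˢ Pt S Q L)).filter fun q => q.2 ∈ Bad M Q L T c q.1 ∧ Indep l c q.2
  have hX : ∑ g ∈ G M, ((Bad M Q L T c g).filter (Indep l c)).card ≤ X.card := by
    rw [← card_sigma]
    apply card_le_card_of_injOn (fun q => (q.1, q.2))
    · intro q hq
      simp only [coe_sigma, Set.mem_sigma_iff, mem_coe, mem_filter] at hq
      simp only [X, coe_filter, Set.mem_ofPred_eq, mem_product]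
      have := hq.2.1
      simp only [Bad, mem_filter, mem_product] at this
      exact ⟨⟨hq.1, this.1⟩, hq.2⟩
    · rintro ⟨g, b⟩ _ ⟨g', b'⟩ _ h
      simp only [Prod.mk.injEq] at h
      obtain ⟨rfl, rfl⟩ := h
      rfl
  let I : Finset ((S × PT S) × ((ℤ × ℤ) × (ℤ × ℤ))) := (univ ×ˢ Pt S Q L) ×ˢ (sq Q ×ˢ sq Q)
  let f : Mat M × (PT S × PT S × PT S) → (S × PT S) × ((ℤ × ℤ) × (ℤ × ℤ)) := fun q =>
    ((q.2.1.1, q.2.2.2), (q.2.1.2.1, q.2.2.1.2.1))
  have hmaps : ∀ q ∈ X, f q ∈ I := by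
    intro q hq
    simp only [X, mem_filter, mem_product, mem_Pt] at hq
    simp only [I, f, mem_product, mem_univ, true_and, mem_Pt]
    tauto
  have hfib : ∀ i ∈ I, (X.filter fun q => f q = i).card ≤
      (coreSet M L (i.2.1 + (c i.1.1 - low c i.1.2)) (i.2.2 + (-i.1.2.2.1)) i.1.2.2.2).card := by
    intro i hi
    apply card_le_card_of_injOn (fun q => (q.1, q.2.1.2.2, q.2.2.1.2.2))
    · rintro ⟨g, π1, π2, π3⟩ hq
      simp only [X, coe_filter, mem_filter, Set.mem_ofPred_eq, mem_product, mem_Pt, Bad] at hq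
      obtain ⟨⟨⟨hg, h1, h2, h3⟩, ⟨-, -, hty, hdet⟩, hind⟩, rfl⟩ := hq
      simp only [coreSet, coe_filter, Set.mem_ofPred_eq, mem_product, f]
      have ea : π1.2.1 + (c π1.1 - low c π3) = low c π1 - low c π3 := by simp only [low]; abel
      have eb : π2.2.1 + -π3.2.1 = low c π2 - low c π3 := by simp only [low, hty]; abel
      refine ⟨⟨hg, h1.2, h2.2⟩, ?_, ?_⟩
      · rw [ea, eb]
        simp only [pos, dv_sub] at hdet
        have hdv := det_dv_modEq hg (low c π1 - low c π3) (low c π2 - low c π3)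
          (π1.2.2 - π3.2.2) (π2.2.2 - π3.2.2)
        have ha := sq_sub_abs (hrange π1.1 _ h1.1) (hrange π3.1 _ h3.1)
        have hb := sq_sub_abs h2.1 h3.1
        have hab : |det (low c π1 - low c π3) (low c π2 - low c π3)| ≤ 2 * Q * Λ := by
          rw [← eb, ← sub_eq_add_neg]
          unfold det
          calc _ ≤ |(low c π1 - low c π3).1 * (π2.2.1 - π3.2.1).2| +
                |(low c π1 - low c π3).2 * (π2.2.1 - π3.2.1).1| := abs_sub _ _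
            _ = |(low c π1 - low c π3).1| * |(π2.2.1 - π3.2.1).2| +
                |(low c π1 - low c π3).2| * |(π2.2.1 - π3.2.1).1| := by rw [abs_mul, abs_mul]
            _ ≤ Λ * Q + Λ * Q := by
                have := ha.1; have := ha.2; have := hb.1; have := hb.2
                unfold low; gcongr
            _ = _ := by ring
        have hs : (T : ℤ) + 2 * Q * Λ < M := by exact_mod_cast hsmall
        have := Int.eq_zero_of_abs_lt_dvd hdv ((abs_sub _ _).trans_lt (by linarith))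
        linarith
      · rw [ea, eb]
        rintro ⟨x, y, h0, hx, hy, r1, r2, r3, r4⟩
        have hlz : (M : ℤ) < l := by exact_mod_cast hl
        have := hind (x : ZMod l) (y : ZMod l) (by
          have c1 := congrArg (Int.cast : ℤ → ZMod l) r1
          have c2 := congrArg (Int.cast : ℤ → ZMod l) r2
          have c3 := congrArg (Int.cast : ℤ → ZMod l) r3
          have c4 := congrArg (Int.cast : ℤ → ZMod l) r4
          simp only [Prod.fst_sub, Prod.snd_sub] at c1 c2 c3 c4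
          push_cast at c1 c2 c3 c4
          funext j
          fin_cases j <;> simp [zz] <;> assumption)
        exact h0 ⟨cast_ne_of_abs (hx.trans_lt hlz) this.1, cast_ne_of_abs (hy.trans_lt hlz) this.2⟩
    · rintro ⟨g, π1, π2, π3⟩ hq ⟨g', π1', π2', π3'⟩ hq' h
      simp only [X, coe_filter, mem_filter, Set.mem_ofPred_eq, mem_product, mem_Pt, Bad] at hq hq'
      obtain ⟨⟨-, ⟨-, -, hty, -⟩, -⟩, e1⟩ := hq
      obtain ⟨⟨-, ⟨-, -, hty', -⟩, -⟩, e2⟩ := hq'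
      have e := e1.trans e2.symm
      simp only [f, Prod.mk.injEq] at e h
      obtain ⟨⟨k1, k2⟩, k3, k4⟩ := e
      obtain ⟨k5, k6, k7⟩ := h
      refine Prod.ext k5 (Prod.ext (Prod.ext k1 (Prod.ext k3 k6)) (Prod.ext (Prod.ext ?_ (Prod.ext k4 k7)) k2))
      simp only
      rw [hty, hty', k2]
  have h1 : X.card ≤ ∑ i ∈ I,
      (coreSet M L (i.2.1 + (c i.1.1 - low c i.1.2)) (i.2.2 + (-i.1.2.2.1)) i.1.2.2.2).card := by
    rw [card_eq_sum_card_fiberwise hmaps]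
    exact sum_le_sum hfib
  have h2 : ∑ g ∈ G M, (((Bad M Q L T c g).filter (Indep l c)).card : ℝ) ≤ ∑ i ∈ I,
      ((coreSet M L (i.2.1 + (c i.1.1 - low c i.1.2)) (i.2.2 + (-i.1.2.2.1)) i.1.2.2.2).card : ℝ) := by
    exact_mod_cast hX.trans h1
  refine h2.trans ?_
  simp only [I]
  rw [sum_product]
  refine (sum_le_card_nsmul _ _ (6500 * (Q : ℝ) ^ 4 * (2 * (M : ℕ) * L : ℝ) ^ 2 *
    (1 + Real.log (4 * (M : ℕ) * L))) ?_).trans ?_
  · intro j hj
    simp only [mem_product, mem_univ, true_and, mem_Pt] at hj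
    refine core_sum m L Λ Q hΛ hL hQ0 hQ hΛQ (c j.1 - low c j.2) (-j.2.2.1) ?_ ?_ j.2.2.2 hj.2
    · intro r hr
      have := sq_sub_abs (hrange j.1 _ hr) (hrange j.2.1 _ hj.1)
      have e : r + (c j.1 - low c j.2) = r + c j.1 - (j.2.2.1 + c j.2.1) := by simp only [low]; abel
      rw [e]; exact this
    · intro r hr
      have := sq_sub_abs hr hj.1
      rw [← sub_eq_add_neg]
      have hQ' : (Q : ℤ) ≤ Λ := by exact_mod_cast hQΛ
      exact ⟨this.1.trans hQ', this.2.trans hQ'⟩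
  · rw [card_product, card_Pt, card_univ, nsmul_eq_mul]
    have : (((2 ^ m : ℕ) : ℝ)) = (M : ℝ) := rfl
    simp only [Nat.cast_mul, Nat.cast_pow (α := ℝ) Q, Nat.cast_pow (α := ℝ) L, this]
    apply le_of_eq; ring

omit [DecidableEq S] in
lemma count_ueq (Q L : ℕ) :
    ((Pt S Q L ×ˢ Pt S Q L ×ˢ Pt S Q L).filter fun b =>
      b.1.2.2 = b.2.2.2.2 ∧ b.2.1.2.2 = b.2.2.2.2).card ≤ (Fintype.card S * Q ^ 2) ^ 3 * L ^ 2 := by
  have : ((Pt S Q L ×ˢ Pt S Q L ×ˢ Pt S Q L).filter fun b =>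
      b.1.2.2 = b.2.2.2.2 ∧ b.2.1.2.2 = b.2.2.2.2).card ≤
      (((univ : Finset S) ×ˢ sq Q) ×ˢ ((univ : Finset S) ×ˢ sq Q) ×ˢ Pt S Q L).card := by
    apply card_le_card_of_injOn (fun b => ((b.1.1, b.1.2.1), (b.2.1.1, b.2.1.2.1), b.2.2))
    · intro b hb
      simp only [coe_filter, Set.mem_ofPred_eq, mem_product, mem_Pt] at hb
      simp only [coe_product, Set.mem_prod, mem_coe, mem_univ, true_and, mem_Pt, coe_univ, Set.mem_univ]
      tauto
    · intro b hb b' hb' h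
      simp only [coe_filter, Set.mem_ofPred_eq] at hb hb'
      simp only [Prod.mk.injEq] at h
      obtain ⟨⟨k1, k2⟩, ⟨k3, k4⟩, k5⟩ := h
      refine Prod.ext (Prod.ext k1 (Prod.ext k2 ?_)) (Prod.ext (Prod.ext k3 (Prod.ext k4 ?_)) k5)
      · rw [hb.2.1, hb'.2.1, k5]
      · rw [hb.2.2, hb'.2.2, k5]
  refine this.trans (le_of_eq ?_)
  simp only [card_product, card_Pt, card_univ, card_sq]
  ring

omit [DecidableEq S] in
lemma zz_inj {Q L Λ l : ℕ} {c : S → ℤ × ℤ} (hrange : ∀ x, ∀ r ∈ sq Q, r + c x ∈ sq Λ)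
    (hinj : ∀ x y, ∀ r ∈ sq Q, ∀ r' ∈ sq Q, r + c x = r' + c y → x = y ∧ r = r')
    (hΛ : Λ ≤ l) (hL : L ≤ l) {π π' : PT S} (h1 : π ∈ Pt S Q L) (h2 : π' ∈ Pt S Q L)
    (h : zz l c π = zz l c π') : π = π' := by
  rw [mem_Pt] at h1 h2
  have a1 := mem_sq.mp (hrange π.1 _ h1.1)
  have a2 := mem_sq.mp (hrange π'.1 _ h2.1)
  have b1 := mem_sq.mp h1.2
  have b2 := mem_sq.mp h2.2
  have hΛ' : (Λ : ℤ) ≤ l := by exact_mod_cast hΛ
  have hL' : (L : ℤ) ≤ l := by exact_mod_cast hL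
  have e0 := congrFun h 0
  have e1 := congrFun h 1
  have e2 := congrFun h 2
  have e3 := congrFun h 3
  simp only [zz, low, Matrix.cons_val_zero, Matrix.cons_val_one, Matrix.cons_val] at e0 e1 e2 e3
  have f0 := cast_inj_of_lt a1.1.1 (a1.1.2.trans_le hΛ') a2.1.1 (a2.1.2.trans_le hΛ') e0
  have f1 := cast_inj_of_lt a1.2.1 (a1.2.2.trans_le hΛ') a2.2.1 (a2.2.2.trans_le hΛ') e1
  have f2 := cast_inj_of_lt b1.1.1 (b1.1.2.trans_le hL') b2.1.1 (b2.1.2.trans_le hL') e2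
  have f3 := cast_inj_of_lt b1.2.1 (b1.2.2.trans_le hL') b2.2.1 (b2.2.2.trans_le hL') e3
  have := hinj _ _ _ h1.1 _ h2.1 (Prod.ext f0 f1)
  exact Prod.ext this.1 (Prod.ext this.2 (Prod.ext f2 f3))

set_option maxHeartbeats 1000000 in
theorem exists_good (m L Λ Q T l n : ℕ) (c : S → ℤ × ℤ) (hΛ : 0 < Λ) (hL : 2 * Λ ≤ L) (hQ0 : 0 < Q)
    (hQ : 2 ^ m ≤ Q ^ 4) (hΛQ : Λ ^ 2 ≤ Q * 2 ^ m) (hQΛ : Q ≤ Λ)
    (hrange : ∀ x, ∀ r ∈ sq Q, r + c x ∈ sq Λ)
    (hinj : ∀ x y, ∀ r ∈ sq Q, ∀ r' ∈ sq Q, r + c x = r' + c y → x = y ∧ r = r')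
    (hsmall : T + 2 * Q * Λ < 2 ^ m) (hlp : l.Prime) (hl2 : l ≠ 2) (hl : 2 ^ m < l) (hLl : L ≤ l)
    (hS : 0 < Fintype.card S)
    (n1 : 832000 * (n : ℝ) ^ 2 * (1 + Real.log (4 * (2 ^ m : ℕ) * L)) ≤
      (2 ^ m : ℕ) * Fintype.card S * (L : ℝ) ^ 2)
    (n2 : 16 * n ^ 2 * l ≤ L ^ 4) (n3 : 2 * n * l ≤ Fintype.card S * (Q ^ 2 * L ^ 2)) :
    ∃ g ∈ G (2 ^ m), ∃ W ⊆ Pt S Q L, n ≤ W.card ∧ ∀ b ∈ Bad (2 ^ m) Q L T c g,
      ¬ (b.1 ∈ W ∧ b.2.1 ∈ W ∧ b.2.2 ∈ W) := by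
  classical
  haveI : Fact l.Prime := ⟨hlp⟩
  obtain ⟨sel, s1, s2, s3, s4⟩ := select l hl2
  have hI := count_indep m L Λ Q T l c hΛ hL hQ0 hQ hΛQ hQΛ hrange hsmall hl
  have hG := card_G m
  set M := 2 ^ m with hM
  set Lg : ℝ := 1 + Real.log (4 * (M : ℕ) * L) with hLg
  set P : ℝ := ((Pt S Q L).card : ℝ) with hP
  have hPe : P = Fintype.card S * ((Q : ℝ) ^ 2 * L ^ 2) := by rw [hP, card_Pt]; push_cast; ring
  have hL0 : 0 < L := by omega
  have hSR : (0 : ℝ) < Fintype.card S := by exact_mod_cast hS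
  have hQR : (0 : ℝ) < Q := by exact_mod_cast hQ0
  have hLR : (0 : ℝ) < L := by exact_mod_cast hL0
  have hlR : (0 : ℝ) < l := by exact_mod_cast hlp.pos
  have hMR : (0 : ℝ) < M := by positivity
  have hP0 : 0 < P := by rw [hPe]; positivity
  set θ : ℝ := 2 * n * l / P with hθ
  have hθ0 : 0 ≤ θ := by positivity
  have hθ1 : θ ≤ 1 := by
    rw [hθ, div_le_one hP0, hPe]; exact_mod_cast n3
  let V : (Fin 5 → ZMod l) → Finset (PT S) := fun w => (Pt S Q L).filter fun π => sel w (zz l c π)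
  let B : Mat M → (Fin 5 → ZMod l) → Finset (PT S × PT S × PT S) := fun g w =>
    (Bad M Q L T c g).filter fun b => sel w (zz l c b.1) ∧ sel w (zz l c b.2.1) ∧ sel w (zz l c b.2.2)
  have hV : ∑ w, ((V w).card : ℝ) = P * l ^ 4 := by
    have : ∑ w, (V w).card = (Pt S Q L).card * l ^ 4 := by
      simp only [V, card_filter]
      rw [sum_comm]
      simp only [← card_filter, s1]
      simp
    rw [hP]; exact_mod_cast this
  set E := (Pt S Q L ×ˢ Pt S Q L ×ˢ Pt S Q L).filter fun b =>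
      b.1.2.2 = b.2.2.2.2 ∧ b.2.1.2.2 = b.2.2.2.2 with hE
  have hB : ∀ g, ∑ w, (B g w).card ≤
      l ^ 2 * ((Bad M Q L T c g).filter (Indep l c)).card + l ^ 3 * E.card := by
    intro g
    have dc : ∑ w, (B g w).card = ∑ b ∈ Bad M Q L T c g, (univ.filter fun w =>
        sel w (zz l c b.1) ∧ sel w (zz l c b.2.1) ∧ sel w (zz l c b.2.2)).card := by
      simp only [B, card_filter]
      exact sum_comm
    rw [dc]
    have pt : ∀ b ∈ Bad M Q L T c g,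
        (univ.filter fun w => sel w (zz l c b.1) ∧ sel w (zz l c b.2.1) ∧ sel w (zz l c b.2.2)).card ≤
        (if Indep l c b then l ^ 2 else 0) + (if b ∈ E then l ^ 3 else 0) := by
      intro b hb
      by_cases hind : Indep l c b
      · rw [if_pos hind]; exact (s3 _ _ _ hind).trans (Nat.le_add_right _ _)
      · rw [if_neg hind, zero_add]
        simp only [Bad, mem_filter, mem_product] at hb
        obtain ⟨⟨p1, p2, p3⟩, ⟨d12, d13, d23⟩, -⟩ := hb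
        have hΛl : Λ ≤ l := by omega
        have z12 : zz l c b.1 ≠ zz l c b.2.1 := fun h => d12 (zz_inj hrange hinj hΛl hLl p1 p2 h)
        have z13 : zz l c b.1 ≠ zz l c b.2.2 := fun h => d13 (zz_inj hrange hinj hΛl hLl p1 p3 h)
        have z23 : zz l c b.2.1 ≠ zz l c b.2.2 := fun h => d23 (zz_inj hrange hinj hΛl hLl p2 p3 h)
        split_ifs with hb'
        · refine le_trans (card_le_card ?_) (s2 _ _ z23)
          intro w hw
          simp only [mem_filter, mem_univ, true_and] at hw ⊢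
          exact hw.2
        · rw [Nat.le_zero, card_eq_zero, filter_eq_empty_iff]
          rintro w - ⟨w1, w2, w3⟩
          apply hb'
          have hdep : ∃ x y : ZMod l, ¬ (x = 0 ∧ y = 0) ∧
              y • (zz l c b.1 - zz l c b.2.2) = x • (zz l c b.2.1 - zz l c b.2.2) := by
            by_contra hcon
            apply hind
            intro x y hxy
            by_contra h0
            exact hcon ⟨x, y, h0, hxy⟩
          obtain ⟨e1, e2, e3, e4⟩ := s4 w _ _ _ z12 z13 z23 hdep w1 w2 w3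
          simp only [zz, Matrix.cons_val] at e1 e2 e3 e4
          have b1 := mem_sq.mp (mem_Pt.mp p1).2
          have b2 := mem_sq.mp (mem_Pt.mp p2).2
          have b3 := mem_sq.mp (mem_Pt.mp p3).2
          have hL' : (L : ℤ) ≤ l := by exact_mod_cast hLl
          simp only [hE, mem_filter, mem_product]
          refine ⟨⟨p1, p2, p3⟩, Prod.ext ?_ ?_, Prod.ext ?_ ?_⟩
          · exact cast_inj_of_lt b1.1.1 (b1.1.2.trans_le hL') b3.1.1 (b3.1.2.trans_le hL') e1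
          · exact cast_inj_of_lt b1.2.1 (b1.2.2.trans_le hL') b3.2.1 (b3.2.2.trans_le hL') e2
          · exact cast_inj_of_lt b2.1.1 (b2.1.2.trans_le hL') b3.1.1 (b3.1.2.trans_le hL') e3
          · exact cast_inj_of_lt b2.2.1 (b2.2.2.trans_le hL') b3.2.1 (b3.2.2.trans_le hL') e4
    refine (sum_le_sum pt).trans ?_
    rw [sum_add_distrib, ← sum_filter, ← sum_filter, sum_const, sum_const, smul_eq_mul, smul_eq_mul,
      mul_comm, mul_comm _ (l ^ 3)]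
    gcongr
    intro b hb
    exact (mem_filter.mp hb).2
  have hEc : (E.card : ℝ) ≤ (Fintype.card S * (Q : ℝ) ^ 2) ^ 3 * L ^ 2 := by
    exact_mod_cast count_ueq (S := S) Q L
  set Gc : ℝ := ((G M).card : ℝ) with hGc
  have hG' : (M : ℝ) ^ 3 ≤ 2 * Gc := by rw [hGc]; exact_mod_cast hG
  have hGc0 : 0 < Gc := by have : (0 : ℝ) < (M : ℝ) ^ 3 := by positivity
                           linarith
  have hBsum : ∑ g ∈ G M, ∑ w, ((B g w).card : ℝ) ≤
      l ^ 2 * ((Fintype.card S : ℝ) ^ 2 * Q ^ 2 * L ^ 2 *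
        (6500 * (Q : ℝ) ^ 4 * (2 * (M : ℕ) * L : ℝ) ^ 2 * Lg)) +
      Gc * (l ^ 3 * ((Fintype.card S * (Q : ℝ) ^ 2) ^ 3 * L ^ 2)) := by
    calc _ ≤ ∑ g ∈ G M, ((l : ℝ) ^ 2 * ((Bad M Q L T c g).filter (Indep l c)).card + l ^ 3 * E.card) := by
          apply sum_le_sum
          intro g _
          exact_mod_cast hB g
      _ = l ^ 2 * ∑ g ∈ G M, (((Bad M Q L T c g).filter (Indep l c)).card : ℝ) + Gc * (l ^ 3 * E.card) := by
          rw [sum_add_distrib, ← mul_sum, sum_const, nsmul_eq_mul]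
      _ ≤ _ := by gcongr
  have hnR : (0 : ℝ) ≤ n := by positivity
  have t1 : θ ^ 3 * (l ^ 2 * ((Fintype.card S : ℝ) ^ 2 * Q ^ 2 * L ^ 2 *
        (6500 * (Q : ℝ) ^ 4 * (2 * (M : ℕ) * L : ℝ) ^ 2 * Lg))) ≤ n / 2 * (Gc * l ^ 5) := by
    have e : θ ^ 3 * (l ^ 2 * ((Fintype.card S : ℝ) ^ 2 * Q ^ 2 * L ^ 2 *
        (6500 * (Q : ℝ) ^ 4 * (2 * (M : ℕ) * L : ℝ) ^ 2 * Lg))) =
        (n / 4 * l ^ 5 * (M : ℝ) ^ 2) * ((832000 * (n : ℝ) ^ 2 * Lg) / (Fintype.card S * (L : ℝ) ^ 2)) := by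
      rw [hθ, hPe]; field_simp; ring
    rw [e]
    have h2 : (832000 * (n : ℝ) ^ 2 * Lg) / (Fintype.card S * (L : ℝ) ^ 2) ≤ M := by
      rw [div_le_iff₀ (by positivity)]; linarith
    calc _ ≤ (n / 4 * l ^ 5 * (M : ℝ) ^ 2) * M := by gcongr
      _ = n / 4 * l ^ 5 * (M : ℝ) ^ 3 := by ring
      _ ≤ n / 4 * l ^ 5 * (2 * Gc) := by gcongr
      _ = _ := by ring
  have t2 : θ ^ 3 * (Gc * (l ^ 3 * ((Fintype.card S * (Q : ℝ) ^ 2) ^ 3 * L ^ 2))) ≤ n / 2 * (Gc * l ^ 5) := by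
    have e : θ ^ 3 * (Gc * (l ^ 3 * ((Fintype.card S * (Q : ℝ) ^ 2) ^ 3 * L ^ 2))) =
        (n / 2 * (Gc * l ^ 5)) * ((16 * (n : ℝ) ^ 2 * l) / (L : ℝ) ^ 4) := by
      rw [hθ, hPe]; field_simp; ring
    rw [e]
    have h2 : (16 * (n : ℝ) ^ 2 * l) / (L : ℝ) ^ 4 ≤ 1 := by
      rw [div_le_one (by positivity)]; exact_mod_cast n2
    exact mul_le_of_le_one_right (by positivity) h2
  have havg : ∑ _q ∈ G M ×ˢ (univ : Finset (Fin 5 → ZMod l)), (n : ℝ) ≤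
      ∑ q ∈ G M ×ˢ (univ : Finset (Fin 5 → ZMod l)), (θ * (V q.2).card - θ ^ 3 * (B q.1 q.2).card) := by
    rw [sum_const, nsmul_eq_mul, card_product, card_univ, Fintype.card_fun, ZMod.card, Fintype.card_fin,
      sum_sub_distrib, ← mul_sum, ← mul_sum, sum_product, sum_product]
    simp only [hV, sum_const, nsmul_eq_mul]
    have e : θ * (Gc * (P * l ^ 4)) = 2 * n * (Gc * l ^ 5) := by rw [hθ]; field_simp
    have h3 := mul_le_mul_of_nonneg_left hBsum (pow_nonneg hθ0 3)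
    rw [mul_add] at h3
    push_cast
    rw [← hGc, e]
    linarith
  have hne : (G M ×ˢ (univ : Finset (Fin 5 → ZMod l))).Nonempty := by
    refine Nonempty.product ?_ univ_nonempty
    rw [← card_pos]; have := hGc0; rw [hGc] at this; exact_mod_cast this
  obtain ⟨q, hq, hqle⟩ := exists_le_of_sum_le hne havg
  obtain ⟨W, hWV, hWc, hWB⟩ := thin (V q.2) (B q.1 q.2) (by
    intro b hb
    simp only [B, Bad, mem_filter] at hb
    exact hb.1.2.1) θ hθ0 hθ1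
  refine ⟨q.1, (mem_product.mp hq).1, W, hWV.trans (filter_subset _ _), ?_, ?_⟩
  · exact_mod_cast hqle.trans hWc
  · intro b hb hW
    refine hWB b ?_ hW
    simp only [B, mem_filter]
    exact ⟨hb, (mem_filter.mp (hWV hW.1)).2, (mem_filter.mp (hWV hW.2.1)).2, (mem_filter.mp (hWV hW.2.2)).2⟩

end

end Crest.Agent.Heil
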