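import Crest.Agent.Heil.Points
set_option autoImplicit false
namespace Crest.Agent.Heil
open Finset

lemma exists_two_pow (A : ℕ) (hA : 64 ≤ A) : ∃ e : ℕ, 16 ≤ 2 ^ e ∧ A ≤ 4 * 2 ^ e ∧ 4 * 2 ^ e ≤ 2 * A := by
  have hex : ∃ e : ℕ, A ≤ 4 * 2 ^ e := ⟨A, by have := Nat.lt_two_pow_self (n := A); omega⟩
  classical
  have h1 := Nat.find_spec hex
  refine ⟨Nat.find hex, by omega, h1, ?_⟩
  rcases h : Nat.find hex with _ | k
  · omega
  · have := Nat.find_min hex (m := k) (by omega)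
    rw [pow_succ]; omega

set_option maxHeartbeats 1000000 in
theorem int_points : ∃ K A p0 : ℕ, 0 < K ∧ 0 < A ∧ ∀ p n : ℕ, p.Prime → p0 ≤ p → p ^ K ≤ n → n < p ^ (2 * K) →
    ∃ (N T : ℕ) (P : Finset (ℤ × ℤ)), 0 < N ∧ P.card = n ∧
      (∀ p ∈ P, 0 ≤ p.1 ∧ p.1 ≤ N ∧ 0 ≤ p.2 ∧ p.2 ≤ N) ∧
      (∀ p ∈ P, ∀ q ∈ P, ∀ r ∈ P, p ≠ q → p ≠ r → q ≠ r → (T : ℤ) < |det (p - r) (q - r)|) ∧
      p ^ 2 * N ^ 2 ≤ A * n ^ 2 * T := by
  classical
  obtain ⟨R, C, hR, hC, hdes⟩ := design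
  obtain ⟨K, hK⟩ : ∃ K, K = 42 * R + 223 := ⟨_, rfl⟩
  refine ⟨K, 2048 * R ^ 2 * C ^ 2, max (32 * R ^ 2 * C ^ 2) (832000 * (1 + 6 * K)), by omega, by positivity, ?_⟩
  intro p n hp hp0 hn1 hn2
  have hpa : 32 * R ^ 2 * C ^ 2 ≤ p := (le_max_left _ _).trans hp0
  have hpb : 832000 * (1 + 6 * K) ≤ p := (le_max_right _ _).trans hp0
  have hp32 : 32 ≤ p := by omega
  have hp1 : 1 ≤ p := by omega
  obtain ⟨U, V, hU, hV, hne⟩ := hdes p hp (by omega)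
  obtain ⟨B, hB⟩ : ∃ B, B = C * p ^ 3 := ⟨_, rfl⟩
  rw [← hB] at hU hV
  have hB0 : 0 < B := by rw [hB]; positivity
  have hRC : 1 ≤ R ^ 2 * C ^ 2 := Nat.one_le_iff_ne_zero.mpr (by positivity)
  have hp6 : 4 ≤ p ^ 6 := le_trans (by omega) (Nat.le_self_pow (by norm_num) p)
  have hA : 16 * R ^ 2 * B ^ 2 = 16 * (R ^ 2 * C ^ 2) * p ^ 6 := by rw [hB]; ring
  obtain ⟨e, he16, he1, he2⟩ := exists_two_pow (16 * R ^ 2 * B ^ 2) (by rw [hA]; nlinarith)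
  obtain ⟨H0, hH0⟩ : ∃ H0, H0 = 2 ^ e := ⟨_, rfl⟩
  rw [← hH0] at he16 he1 he2
  obtain ⟨X, Y, hXY, hg⟩ := mid_gap R B (4 * H0) hR hB0 U V hU hV he1 hne
  obtain ⟨Q, hQ⟩ : ∃ Q, Q = (4 * H0) ^ (R + 5) := ⟨_, rfl⟩
  have hQ0 : 0 < Q := by rw [hQ]; positivity
  have hcard : Fintype.card (Fin (p ^ 11)) = p ^ 11 := Fintype.card_fin _
  have hp11 : 3 ≤ p ^ 11 := le_trans (by omega) (Nat.le_self_pow (by norm_num) p)
  obtain ⟨c, hrange, hinj, hgap⟩ := lows (S := Fin (p ^ 11)) (by rw [hcard]; exact hp11) R H0 Q he16 hQ0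
    X Y hXY hg
  obtain ⟨H, hH⟩ : ∃ H, H = 4 * H0 := ⟨_, rfl⟩
  rw [← hH] at he1 he2 hQ hrange hgap
  clear hXY hg hdes hne hU hV
  have hH1 : 1 ≤ H := by omega
  obtain ⟨m, hm⟩ : ∃ m, m = (e + 2) * (3 * R + 15) := ⟨_, rfl⟩
  obtain ⟨M, hMdef⟩ : ∃ M, M = 2 ^ m := ⟨_, rfl⟩
  have hM : M = Q ^ 2 * H ^ (R + 5) := by
    have : H = 2 ^ (e + 2) := by rw [hH, hH0]; ring
    rw [hMdef, hQ, this, hm, ← pow_mul, ← pow_mul, ← pow_mul, ← pow_add]; congr 1; ring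
  have hMQ : M = Q ^ 3 := by rw [hM, ← hQ]; ring
  have hM0 : 0 < M := by rw [hMQ]; positivity
  have hHp : H ≤ p ^ 7 := by
    calc H ≤ 2 * (16 * R ^ 2 * B ^ 2) := he2
      _ = (32 * R ^ 2 * C ^ 2) * p ^ 6 := by rw [hB]; ring
      _ ≤ p * p ^ 6 := Nat.mul_le_mul_right _ hpa
      _ = _ := by ring
  have hMp : M ≤ p ^ (21 * R + 105) := by
    calc M = H ^ (3 * R + 15) := by rw [hMQ, hQ, ← pow_mul]; congr 1; ring
      _ ≤ (p ^ 7) ^ (3 * R + 15) := Nat.pow_le_pow_left hHp _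
      _ = _ := by rw [← pow_mul]; congr 1; ring
  -- choose L
  have hex : ∃ L : ℕ, n ^ 2 ≤ L ^ 2 * (p ^ 8 * M) :=
    ⟨n, Nat.le_mul_of_pos_right _ (by positivity)⟩
  obtain ⟨L, hL⟩ : ∃ L, L = Nat.find hex := ⟨_, rfl⟩
  have hL1 : n ^ 2 ≤ L ^ 2 * (p ^ 8 * M) := hL ▸ Nat.find_spec hex
  have hLn : L ≤ n := hL ▸ Nat.find_min' hex (Nat.le_mul_of_pos_right _ (by positivity))
  have hbig : 32 * (p ^ 8 * M) ≤ L := by
    have h1 : 32 * (p ^ 8 * M) * (p ^ 4 * M) ≤ n := by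
      calc 32 * (p ^ 8 * M) * (p ^ 4 * M) = 32 * p ^ 12 * (M * M) := by ring
        _ ≤ p * p ^ 12 * (p ^ (21 * R + 105) * p ^ (21 * R + 105)) := by gcongr
        _ = p ^ K := by rw [hK]; ring
        _ ≤ n := hn1
    have h2 : (32 * (p ^ 8 * M)) ^ 2 * (p ^ 8 * M) ≤ L ^ 2 * (p ^ 8 * M) := by
      calc (32 * (p ^ 8 * M)) ^ 2 * (p ^ 8 * M) ≤ (32 * (p ^ 8 * M)) ^ 2 * (p ^ 8 * M * M) := by
            gcongr; exact Nat.le_mul_of_pos_right _ hM0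
        _ = (32 * (p ^ 8 * M) * (p ^ 4 * M)) ^ 2 := by ring
        _ ≤ n ^ 2 := Nat.pow_le_pow_left h1 2
        _ ≤ _ := hL1
    exact (Nat.pow_le_pow_iff_left (by norm_num)).mp (Nat.le_of_mul_le_mul_right h2 (by positivity))
  have hp8 : 1 ≤ p ^ 8 := Nat.one_le_pow _ _ hp1
  have hML : 32 * M ≤ L := le_trans (by nlinarith) hbig
  have hL4 : L ^ 2 * (p ^ 8 * M) ≤ 4 * n ^ 2 := by
    have h1 := Nat.find_min hex (m := L - 1) (by omega)
    push Not at h1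
    have h2 : L ^ 2 ≤ 4 * (L - 1) ^ 2 := by
      have : L ≤ 2 * (L - 1) := by omega
      calc L ^ 2 ≤ (2 * (L - 1)) ^ 2 := Nat.pow_le_pow_left this 2
        _ = _ := by ring
    calc _ ≤ 4 * (L - 1) ^ 2 * (p ^ 8 * M) := Nat.mul_le_mul_right _ h2
      _ = 4 * ((L - 1) ^ 2 * (p ^ 8 * M)) := by ring
      _ ≤ _ := by omega
  obtain ⟨l, hlp, hl1, hl2⟩ := Nat.exists_prime_lt_and_le_two_mul L (by omega)
  obtain ⟨Λ, hΛ⟩ : ∃ Λ, Λ = Q * H ^ (R + 3) := ⟨_, rfl⟩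
  obtain ⟨T, hT⟩ : ∃ T, T = Q ^ 2 * H ^ (R + 3) * H0 := ⟨_, rfl⟩
  rw [← hΛ] at hrange
  rw [← hT] at hgap
  have hHH : H ^ (R + 3) ≤ Q := by rw [hQ]; exact Nat.pow_le_pow_right hH1 (by omega)
  have hΛM : Λ ≤ M := by
    rw [hMQ, hΛ]
    calc Q * H ^ (R + 3) ≤ Q * Q := Nat.mul_le_mul_left _ hHH
      _ ≤ Q * Q * Q := Nat.le_mul_of_pos_right _ hQ0
      _ = _ := by ring
  have hTM : M = 4 * H * T := by
    rw [hM, hT]; rw [show H ^ (R + 5) = H ^ (R + 3) * H * H by ring]; nth_rewrite 3 [hH]; ring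
  obtain ⟨P, hPc, hPr, hPt⟩ := points (S := Fin (p ^ 11)) m L Λ Q T l n c (by rw [hΛ]; positivity) (by omega) hQ0
    (by rw [← hMdef, hMQ]; exact Nat.pow_le_pow_right hQ0 (by norm_num))
    (by
      rw [← hMdef, hMQ, hΛ]
      calc (Q * H ^ (R + 3)) ^ 2 ≤ (Q * Q) ^ 2 := by gcongr
        _ = _ := by ring)
    (hΛ ▸ Nat.le_mul_of_pos_right _ (by positivity)) hrange hinj
    (by rw [← hMdef, hM]; exact hgap)
    (by
      rw [← hMdef, hM, hT, hΛ]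
      have : H0 + 2 < H * H := by nlinarith
      calc Q ^ 2 * H ^ (R + 3) * H0 + 2 * Q * (Q * H ^ (R + 3)) = Q ^ 2 * H ^ (R + 3) * (H0 + 2) := by ring
        _ < Q ^ 2 * H ^ (R + 3) * (H * H) := by gcongr
        _ = _ := by ring)
    hlp (by omega) (by rw [← hMdef]; omega) hl1.le (by rw [hcard]; omega)
    (by
      rw [← hMdef, hcard]
      have hpR : (1 : ℝ) ≤ p := by exact_mod_cast hp1
      have h1 : 4 * M * L ≤ p ^ (6 * K) := by
        calc 4 * M * L ≤ n * n := Nat.mul_le_mul (by omega) hLn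
          _ ≤ p ^ (2 * K) * p ^ (2 * K) := Nat.mul_le_mul hn2.le hn2.le
          _ = p ^ (4 * K) := by ring
          _ ≤ _ := Nat.pow_le_pow_right hp1 (by omega)
      have h2 : Real.log (4 * (M : ℝ) * L) ≤ 6 * K * p := by
        have : (4 * (M : ℝ) * L) ≤ (p : ℝ) ^ (6 * K) := by exact_mod_cast h1
        have hL0 : (0 : ℝ) < L := by exact_mod_cast (by omega : 0 < L)
        calc _ ≤ Real.log ((p : ℝ) ^ (6 * K)) := Real.log_le_log (by positivity) this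
          _ = (6 * K : ℕ) * Real.log p := Real.log_pow _ _
          _ ≤ (6 * K : ℕ) * p := by
            gcongr; exact (Real.log_le_sub_one_of_pos (by linarith)).trans (by linarith)
          _ = _ := by push_cast; ring
      have h3 : 832000 * (1 + Real.log (4 * (M : ℝ) * L)) ≤ (p : ℝ) ^ 3 := by
        have hb : (832000 : ℝ) * (1 + 6 * K) ≤ p := by exact_mod_cast hpb
        calc _ ≤ 832000 * (p + 6 * K * (p : ℝ)) := by gcongr
          _ = 832000 * (1 + 6 * K) * p := by ring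
          _ ≤ p * p := by gcongr
          _ ≤ p * p * p := le_mul_of_one_le_right (by positivity) hpR
          _ = _ := by ring
      have h4 : (n : ℝ) ^ 2 ≤ (L : ℝ) ^ 2 * ((p : ℝ) ^ 8 * M) := by exact_mod_cast hL1
      calc 832000 * (n : ℝ) ^ 2 * (1 + Real.log (4 * (M : ℝ) * L))
          = (n : ℝ) ^ 2 * (832000 * (1 + Real.log (4 * (M : ℝ) * L))) := by ring
        _ ≤ ((L : ℝ) ^ 2 * ((p : ℝ) ^ 8 * M)) * (p : ℝ) ^ 3 := by
          apply mul_le_mul h4 h3 _ (by positivity)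
          have : 0 ≤ Real.log (4 * (M : ℝ) * L) := by
            apply Real.log_nonneg
            have : 1 ≤ 4 * M * L := Nat.one_le_iff_ne_zero.mpr (by
              have : 0 < L := by omega
              positivity)
            exact_mod_cast this
          positivity
        _ = _ := by push_cast; ring)
    (by
      calc 16 * n ^ 2 * l ≤ 16 * (L ^ 2 * (p ^ 8 * M)) * (2 * L) := by gcongr
        _ = L ^ 3 * (32 * (p ^ 8 * M)) := by ring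
        _ ≤ L ^ 3 * L := Nat.mul_le_mul_left _ hbig
        _ = _ := by ring)
    (by
      rw [hcard]
      have h1 : n ≤ L * p ^ 4 * Q ^ 2 := by
        apply (Nat.pow_le_pow_iff_left (n := 2) (by norm_num)).mp
        calc n ^ 2 ≤ L ^ 2 * (p ^ 8 * M) := hL1
          _ ≤ L ^ 2 * (p ^ 8 * Q ^ 4) := by
            gcongr; rw [hMQ]; exact Nat.pow_le_pow_right hQ0 (by norm_num)
          _ = _ := by ring
      have h2 : 4 ≤ p ^ 7 := le_trans (by omega) (Nat.le_self_pow (by norm_num) p)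
      calc 2 * n * l ≤ 2 * (L * p ^ 4 * Q ^ 2) * (2 * L) := by gcongr
        _ = 4 * (p ^ 4 * (Q ^ 2 * L ^ 2)) := by ring
        _ ≤ p ^ 7 * (p ^ 4 * (Q ^ 2 * L ^ 2)) := Nat.mul_le_mul_right _ h2
        _ = _ := by ring)
    (by omega)
  refine ⟨2 * M * L, T, P, by have : 0 < L := by omega
                              positivity, hPc, ?_, hPt, ?_⟩
  · intro q hq
    have := hPr q hq
    rw [← hMdef] at this
    push_cast
    exact this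
  · apply Nat.le_of_mul_le_mul_right (c := p ^ 6) _ (by positivity)
    have h5 : H ≤ 32 * R ^ 2 * C ^ 2 * p ^ 6 := by
      calc H ≤ 2 * (16 * R ^ 2 * B ^ 2) := he2
        _ = _ := by rw [hB]; ring
    calc p ^ 2 * (2 * M * L) ^ 2 * p ^ 6 = 4 * M * (L ^ 2 * (p ^ 8 * M)) := by ring
      _ ≤ 4 * M * (4 * n ^ 2) := Nat.mul_le_mul_left _ hL4
      _ = 64 * H * (n ^ 2 * T) := by rw [hTM]; ring
      _ ≤ 64 * (32 * R ^ 2 * C ^ 2 * p ^ 6) * (n ^ 2 * T) := by gcongr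
      _ = _ := by ring

end Crest.Agent.Heil
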