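import Crest.Agent.Heil.Main
set_option autoImplicit false
namespace Crest.Agent.Heil
open Finset

lemma pos_range {S : Type} {M Λ L : ℕ} [NeZero M] (c : S → ℤ × ℤ) (g : Mat M) (π : PT S)
    (hL : 2 * Λ ≤ L) (h1 : low c π ∈ sq Λ) (h2 : π.2.2 ∈ sq L) :
    0 ≤ (pos c g π).1 ∧ (pos c g π).1 ≤ 2 * M * L ∧ 0 ≤ (pos c g π).2 ∧ (pos c g π).2 ≤ 2 * M * L := by
  rw [mem_sq] at h1 h2
  have := abs_dv_le g (low c π) π.2.2 hL (by rw [abs_le]; omega) (by rw [abs_le]; omega)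
    (by rw [abs_le]; omega) (by rw [abs_le]; omega)
  refine ⟨?_, (abs_le.mp this.1).2, ?_, (abs_le.mp this.2).2⟩
  · have := h1.1.1; have := h1.2.1; have := h2.1.1
    simp only [pos, dv, act]; positivity
  · have := h1.1.1; have := h1.2.1; have := h2.2.1
    simp only [pos, dv, act]; positivity

theorem points {S : Type} [Fintype S] [DecidableEq S]
    (m L Λ Q T l n : ℕ) (c : S → ℤ × ℤ) (hΛ : 0 < Λ) (hL : 2 * Λ ≤ L) (hQ0 : 0 < Q)
    (hQ : 2 ^ m ≤ Q ^ 4) (hΛQ : Λ ^ 2 ≤ Q * 2 ^ m) (hQΛ : Q ≤ Λ)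
    (hrange : ∀ x, ∀ r ∈ sq Q, r + c x ∈ sq Λ)
    (hinj : ∀ x y, ∀ r ∈ sq Q, ∀ r' ∈ sq Q, r + c x = r' + c y → x = y ∧ r = r')
    (hgap : ∀ x y z, x ≠ y → x ≠ z → y ≠ z → ∀ r1 ∈ sq Q, ∀ r2 ∈ sq Q, ∀ r3 ∈ sq Q, ∀ t : ℤ,
      ((2 ^ m : ℕ) : ℤ) ∣ t - det (r1 + c x - (r3 + c z)) (r2 + c y - (r3 + c z)) → (T : ℤ) < |t|)
    (hsmall : T + 2 * Q * Λ < 2 ^ m) (hlp : l.Prime) (hl2 : l ≠ 2) (hl : 2 ^ m < l) (hLl : L ≤ l)
    (hS : 0 < Fintype.card S)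
    (n1 : 832000 * (n : ℝ) ^ 2 * (1 + Real.log (4 * (2 ^ m : ℕ) * L)) ≤
      (2 ^ m : ℕ) * Fintype.card S * (L : ℝ) ^ 2)
    (n2 : 16 * n ^ 2 * l ≤ L ^ 4) (n3 : 2 * n * l ≤ Fintype.card S * (Q ^ 2 * L ^ 2)) (hn : 3 ≤ n) :
    ∃ P : Finset (ℤ × ℤ), P.card = n ∧
      (∀ p ∈ P, 0 ≤ p.1 ∧ p.1 ≤ 2 * (2 ^ m : ℕ) * L ∧ 0 ≤ p.2 ∧ p.2 ≤ 2 * (2 ^ m : ℕ) * L) ∧
      ∀ p ∈ P, ∀ q ∈ P, ∀ r ∈ P, p ≠ q → p ≠ r → q ≠ r → (T : ℤ) < |det (p - r) (q - r)| := by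
  classical
  obtain ⟨g, hg, W, hW, hn', hB⟩ := exists_good m L Λ Q T l n c hΛ hL hQ0 hQ hΛQ hQΛ hrange hinj hsmall
    hlp hl2 hl hLl hS n1 n2 n3
  obtain ⟨W', hW', hc⟩ := exists_subset_card_eq hn'
  have same : ∀ a ∈ W, ∀ b ∈ W, ∀ d ∈ W, a ≠ b → a ≠ d → b ≠ d → b.1 = d.1 →
      (T : ℤ) < |det (pos c g a - pos c g d) (pos c g b - pos c g d)| := by
    intro a ha b hb d hd h1 h2 h3 hty
    by_contra hle
    push Not at hle
    apply hB (a, b, d) _ ⟨ha, hb, hd⟩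
    simp only [Bad, mem_filter, mem_product]
    exact ⟨⟨hW ha, hW hb, hW hd⟩, ⟨h1, h2, h3⟩, hty, hle⟩
  have all : ∀ a ∈ W, ∀ b ∈ W, ∀ d ∈ W, a ≠ b → a ≠ d → b ≠ d →
      (T : ℤ) < |det (pos c g a - pos c g d) (pos c g b - pos c g d)| := by
    intro a ha b hb d hd h1 h2 h3
    by_cases e1 : b.1 = d.1
    · exact same a ha b hb d hd h1 h2 h3 e1
    by_cases e2 : a.1 = d.1
    · have := same b hb a ha d hd h1.symm h3 h2 e2
      rwa [show det (pos c g b - pos c g d) (pos c g a - pos c g d) =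
        -det (pos c g a - pos c g d) (pos c g b - pos c g d) by simp only [det]; ring, abs_neg] at this
    by_cases e3 : a.1 = b.1
    · have := same d hd a ha b hb h2.symm h3.symm h1 e3
      rwa [show det (pos c g d - pos c g b) (pos c g a - pos c g b) =
        det (pos c g a - pos c g d) (pos c g b - pos c g d) by
          simp only [det, Prod.fst_sub, Prod.snd_sub]; ring] at this
    apply hgap a.1 b.1 d.1 e3 e2 e1 _ (mem_Pt.mp (hW ha)).1 _ (mem_Pt.mp (hW hb)).1 _ (mem_Pt.mp (hW hd)).1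
    simp only [pos, dv_sub]
    exact det_dv_modEq hg _ _ _ _
  have hinjW : Set.InjOn (pos c g) W' := by
    intro a ha b hb hab
    by_contra hne
    have : ({a, b} : Finset (PT S)).card < W'.card := by
      rw [card_pair hne]; omega
    obtain ⟨d, hd, hd'⟩ := exists_mem_notMem_of_card_lt_card this
    simp only [mem_insert, mem_singleton, not_or] at hd'
    have := all a (hW' ha) b (hW' hb) d (hW' hd) hne (Ne.symm hd'.1) (Ne.symm hd'.2)
    rw [hab] at this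
    simp only [det, mul_comm, sub_self, abs_zero] at this
    omega
  refine ⟨W'.image (pos c g), by rw [card_image_of_injOn hinjW, hc], ?_, ?_⟩
  · intro p hp
    obtain ⟨a, ha, rfl⟩ := mem_image.mp hp
    have := mem_Pt.mp (hW (hW' ha))
    exact pos_range c g a hL (hrange _ _ this.1) this.2
  · intro p hp q hq r hr h1 h2 h3
    obtain ⟨a, ha, rfl⟩ := mem_image.mp hp
    obtain ⟨b, hb, rfl⟩ := mem_image.mp hq
    obtain ⟨d, hd, rfl⟩ := mem_image.mp hr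
    exact all a (hW' ha) b (hW' hb) d (hW' hd) (fun h => h1 (h ▸ rfl)) (fun h => h2 (h ▸ rfl))
      (fun h => h3 (h ▸ rfl))

set_option maxHeartbeats 1000000 in
/-- the low parts built from the digit design -/
theorem lows {S : Type} [Fintype S] (hS : 3 ≤ Fintype.card S) (R H0 Q : ℕ) (hH0 : 16 ≤ H0) (hQ0 : 0 < Q)
    (X Y : S → ℤ)
    (hXY : ∀ x, 0 ≤ X x ∧ X x < ((4 * H0 : ℕ) : ℤ) ^ (R + 1) ∧ 0 ≤ Y x ∧ Y x < ((4 * H0 : ℕ) : ℤ) ^ (R + 1))
    (hg : ∀ x y z, x ≠ y → x ≠ z → y ≠ z → ∀ t : ℤ,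
        ((4 * H0 : ℕ) : ℤ) ^ (R + 1) ∣ t - ((X x - X z) * (Y y - Y z) - (Y x - Y z) * (X y - X z)) →
        ((4 * H0 : ℕ) : ℤ) ^ R ≤ 2 * |t|) :
    ∃ c : S → ℤ × ℤ, (∀ x, ∀ r ∈ sq Q, r + c x ∈ sq (Q * (4 * H0) ^ (R + 3))) ∧
      (∀ x y, ∀ r ∈ sq Q, ∀ r' ∈ sq Q, r + c x = r' + c y → x = y ∧ r = r') ∧
      (∀ x y z, x ≠ y → x ≠ z → y ≠ z → ∀ r1 ∈ sq Q, ∀ r2 ∈ sq Q, ∀ r3 ∈ sq Q, ∀ t : ℤ,
        ((Q ^ 2 * (4 * H0) ^ (R + 5) : ℕ) : ℤ) ∣ t - det (r1 + c x - (r3 + c z)) (r2 + c y - (r3 + c z)) →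
        ((Q ^ 2 * (4 * H0) ^ (R + 3) * H0 : ℕ) : ℤ) < |t|) := by
  classical
  set H : ℤ := ((4 * H0 : ℕ) : ℤ) with hH
  have hH64 : 64 ≤ H := by rw [hH]; push_cast; omega
  have hHe : H = 4 * H0 := by rw [hH]; push_cast; ring
  have hQz : (0 : ℤ) < Q := by exact_mod_cast hQ0
  set Q' : ℤ := Q * H ^ 2 with hQ'
  have hH0' : 0 < H := by linarith
  have hQQ' : (Q : ℤ) ≤ Q' := le_mul_of_one_le_right hQz.le (one_le_pow₀ (by linarith))
  have hQ'0 : 0 < Q' := by positivity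
  refine ⟨fun x => (Q' * X x, Q' * Y x), ?_, ?_, ?_⟩
  · intro x r hr
    obtain ⟨h1, h2, h3, h4⟩ := hXY x
    rw [mem_sq] at hr ⊢
    have e : ((Q * (4 * H0) ^ (R + 3) : ℕ) : ℤ) = Q' * H ^ (R + 1) := by
      rw [hQ', hH]; push_cast; ring
    rw [e]
    simp only [Prod.fst_add, Prod.snd_add]
    have k1 : Q' * (X x + 1) ≤ Q' * H ^ (R + 1) := by gcongr; omega
    have k2 : Q' * (Y x + 1) ≤ Q' * H ^ (R + 1) := by gcongr; omega
    have k3 : 0 ≤ Q' * X x := by positivity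
    have k4 : 0 ≤ Q' * Y x := by positivity
    refine ⟨⟨by linarith [hr.1.1], by linarith [hr.1.2]⟩, ⟨by linarith [hr.2.1], by linarith [hr.2.2]⟩⟩
  · intro x y r hr r' hr' h
    rw [mem_sq] at hr hr'
    have h1 := congrArg Prod.fst h
    have h2 := congrArg Prod.snd h
    simp only [Prod.fst_add, Prod.snd_add] at h1 h2
    have e1 : r.1 - r'.1 = 0 := Int.eq_zero_of_abs_lt_dvd (m := Q') ⟨X y - X x, by linarith⟩
      (by rw [abs_lt]; omega)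
    have e2 : r.2 - r'.2 = 0 := Int.eq_zero_of_abs_lt_dvd (m := Q') ⟨Y y - Y x, by linarith⟩
      (by rw [abs_lt]; omega)
    refine ⟨?_, Prod.ext (by linarith) (by linarith)⟩
    have f1 : X x = X y := mul_left_cancel₀ hQ'0.ne' (by linarith)
    have f2 : Y x = Y y := mul_left_cancel₀ hQ'0.ne' (by linarith)
    by_contra hne
    have : ({x, y} : Finset S).card < (univ : Finset S).card := by
      rw [card_pair hne, card_univ]; omega
    obtain ⟨z, -, hz⟩ := exists_mem_notMem_of_card_lt_card this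
    simp only [mem_insert, mem_singleton, not_or] at hz
    have := hg x y z hne (Ne.symm hz.1) (Ne.symm hz.2) 0 (by rw [f1, f2]; ring_nf; exact dvd_zero _)
    have h5 : 0 < H ^ R := by positivity
    simp at this
    linarith
  · intro x y z hxy hxz hyz r1 h1 r2 h2 r3 h3 t ht
    have a := sq_sub_abs h1 h3
    have b := sq_sub_abs h2 h3
    simp only [Prod.fst_sub, Prod.snd_sub] at a b
    obtain ⟨x1, x2, x3, x4⟩ := hXY x
    obtain ⟨y1, y2, y3, y4⟩ := hXY y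
    obtain ⟨z1, z2, z3, z4⟩ := hXY z
    set K := H ^ (R + 1) with hK
    have m1 : |X x - X z| ≤ K := by rw [abs_le]; omega
    have m2 : |Y x - Y z| ≤ K := by rw [abs_le]; omega
    have m3 : |X y - X z| ≤ K := by rw [abs_le]; omega
    have m4 : |Y y - Y z| ≤ K := by rw [abs_le]; omega
    set a1 := r1.1 - r3.1
    set a2 := r1.2 - r3.2
    set b1 := r2.1 - r3.1
    set b2 := r2.2 - r3.2
    set E : ℤ := (a1 * b2 - a2 * b1) + Q' * (a1 * (Y y - Y z) - a2 * (X y - X z) +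
      ((X x - X z) * b2 - (Y x - Y z) * b1)) with hE
    set D : ℤ := (X x - X z) * (Y y - Y z) - (Y x - Y z) * (X y - X z) with hD
    have hdet : det (r1 + (Q' * X x, Q' * Y x) - (r3 + (Q' * X z, Q' * Y z)))
        (r2 + (Q' * X y, Q' * Y y) - (r3 + (Q' * X z, Q' * Y z))) = E + Q' ^ 2 * D := by
      simp only [det, hE, hD, Prod.fst_sub, Prod.snd_sub, Prod.fst_add, Prod.snd_add, a1, a2, b1, b2]
      ring
    have eM : ((Q ^ 2 * (4 * H0) ^ (R + 5) : ℕ) : ℤ) = Q' ^ 2 * K := by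
      rw [hQ', hK, hH]; push_cast; ring
    rw [hdet, eM] at ht
    obtain ⟨w, hw⟩ := ht
    have hle := hg x y z hxy hxz hyz (D + K * w) ⟨w, by ring⟩
    have tE : t = E + Q' ^ 2 * (D + K * w) := by linarith
    have hK0 : 0 ≤ K := by positivity
    have pr : ∀ u v : ℤ, ∀ A B : ℤ, |u| ≤ A → |v| ≤ B → |u * v| ≤ A * B := by
      intro u v A B hu hv
      rw [abs_mul]; exact mul_le_mul hu hv (abs_nonneg _) ((abs_nonneg _).trans hu)
    have bE : |E| ≤ 2 * Q * Q + Q' * (4 * Q * K) := by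
      have p1 := abs_le.mp (pr _ _ _ _ a.1 b.2)
      have p2 := abs_le.mp (pr _ _ _ _ a.2 b.1)
      have p3 := abs_le.mp (pr _ _ _ _ a.1 m4)
      have p4 := abs_le.mp (pr _ _ _ _ a.2 m3)
      have p5 := abs_le.mp (pr _ _ _ _ m1 b.2)
      have p6 := abs_le.mp (pr _ _ _ _ m2 b.1)
      have q1 : |a1 * b2 - a2 * b1| ≤ 2 * Q * Q := by rw [abs_le]; constructor <;> linarith
      have q2 : |a1 * (Y y - Y z) - a2 * (X y - X z) + ((X x - X z) * b2 - (Y x - Y z) * b1)| ≤ 4 * Q * K := by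
        rw [abs_le]; constructor <;> linarith
      refine (abs_add_le _ _).trans (add_le_add q1 ?_)
      rw [abs_mul, abs_of_pos hQ'0]; gcongr
    have lower : Q' ^ 2 * |D + K * w| ≤ |t| + |E| := by
      have : Q' ^ 2 * (D + K * w) = t - E := by linarith
      calc _ = |Q' ^ 2 * (D + K * w)| := by rw [abs_mul, abs_of_pos (by positivity : 0 < Q' ^ 2)]
        _ = |t - E| := by rw [this]
        _ ≤ _ := abs_sub _ _
    have eT : ((Q ^ 2 * (4 * H0) ^ (R + 3) * H0 : ℕ) : ℤ) * 4 = Q ^ 2 * H ^ R * H ^ 4 := by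
      rw [hH]; push_cast; ring
    set Z : ℤ := Q ^ 2 * H ^ R with hZ
    have hZ0 : 0 < Z := by positivity
    have hQZ : (Q : ℤ) * Q ≤ Z := by
      rw [hZ, ← pow_two]; exact le_mul_of_one_le_right (by positivity) (one_le_pow₀ (by linarith))
    have e2 : Q' * (4 * Q * K) = 4 * Z * H ^ 3 := by rw [hQ', hK, hZ]; ring
    have e3 : Q' ^ 2 * H ^ R = Z * H ^ 4 := by rw [hQ', hZ]; ring
    have l1 : Z * H ^ 4 ≤ 2 * (|t| + |E|) := by
      rw [← e3]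
      have k := mul_le_mul_of_nonneg_left hle (by positivity : 0 ≤ Q' ^ 2)
      have k2 : Q' ^ 2 * (2 * |D + K * w|) = 2 * (Q' ^ 2 * |D + K * w|) := by ring
      linarith
    have hH3 : 1 ≤ H ^ 3 := one_le_pow₀ (by linarith)
    have l2 : 64 * (Z * H ^ 3) ≤ Z * H ^ 4 := by
      have : Z * H ^ 4 = H * (Z * H ^ 3) := by ring
      rw [this]; gcongr
    have l3 : Z ≤ Z * H ^ 3 := le_mul_of_one_le_right hZ0.le hH3
    rw [e2] at bE
    have e4 : 4 * Z * H ^ 3 = 4 * (Z * H ^ 3) := by ring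
    have e5 : (2 : ℤ) * Q * Q = 2 * (Q * Q) := by ring
    have e6 : 0 < Z * H ^ 3 := by positivity
    linarith

end Crest.Agent.Heil
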