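import Crest.Agent.Heil.Core
set_option autoImplicit false
namespace Crest.Agent.Heil
open Finset

lemma card_coreSet_swap (M L : ℕ) [NeZero M] (a b u3 : ℤ × ℤ) :
    (coreSet M L a b u3).card ≤ (coreSet M L b a u3).card := by
  apply card_le_card_of_injOn (fun p => (p.1, p.2.2, p.2.1))
  · intro p hp
    simp only [coreSet, coe_filter, mem_product, Set.mem_ofPred_eq] at hp ⊢
    refine ⟨⟨hp.1.1, hp.1.2.2, hp.1.2.1⟩, ?_, fun h => hp.2.2 h.symm⟩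
    have := hp.2.1
    simp only [det] at this ⊢
    linarith
  · intro p _ q _ h
    simp only [Prod.mk.injEq] at h
    exact Prod.ext h.1 (Prod.ext h.2.2 h.2.1)

lemma odd_unit (m : ℕ) (z : ℤ) (hz : ¬ (2 : ℤ) ∣ z) : ∃ e : ℤ, (z : ZMod (2 ^ m)) * e = 1 := by
  have h : IsCoprime z ((2 : ℤ) ^ m) := by
    apply IsCoprime.pow_right
    exact ((Int.prime_two.coprime_iff_not_dvd).mpr hz).symm
  obtain ⟨u, v, huv⟩ := h
  refine ⟨u, ?_⟩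
  have := congrArg (Int.cast : ℤ → ZMod (2 ^ m)) huv
  push_cast at this
  have h2 : (2 : ZMod (2 ^ m)) ^ m = 0 := by
    have := ZMod.natCast_self (2 ^ m)
    push_cast at this; exact this
  rw [h2] at this
  linear_combination this

theorem core2 (m L Λ : ℕ) (hΛ : 0 < Λ) (hL : 2 * Λ ≤ L) (a b : ℤ × ℤ)
    (ha1 : |a.1| ≤ Λ) (ha2 : |a.2| ≤ Λ) (hb1 : |b.1| ≤ Λ) (hb2 : |b.2| ≤ Λ)
    (u3 : ℤ × ℤ) (hu3 : u3 ∈ sq L) :
    ∃ w ≤ m, ((2 : ℤ) ^ w ∣ a.1 ∧ (2 : ℤ) ^ w ∣ a.2 ∧ (2 : ℤ) ^ w ∣ b.1 ∧ (2 : ℤ) ^ w ∣ b.2) ∧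
    ((coreSet (2 ^ m) L a b u3).card : ℝ) ≤
      200 * 2 ^ w * (2 * (2 ^ m : ℕ) * L : ℝ) ^ 2 * (1 + Real.log (4 * (2 ^ m : ℕ) * L)) +
        if det a b = 0 then 36 * (2 * (2 ^ m : ℕ) * L : ℝ) ^ 2 * Λ ^ 2 / (2 ^ m : ℕ) else 0 := by
  classical
  let P : ℕ → Prop := fun w =>
    (2 : ℤ) ^ w ∣ a.1 ∧ (2 : ℤ) ^ w ∣ a.2 ∧ (2 : ℤ) ^ w ∣ b.1 ∧ (2 : ℤ) ^ w ∣ b.2
  have hP0 : P 0 := by simp [P]
  set w := Nat.findGreatest P m with hw
  have hwm : w ≤ m := Nat.findGreatest_le m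
  have hPw : P w := Nat.findGreatest_spec (Nat.zero_le m) hP0
  refine ⟨w, hwm, hPw, ?_⟩
  have hM : 2 ^ m = 2 ^ w * 2 ^ (m - w) := by rw [← pow_add]; congr 1; omega
  obtain ⟨⟨a1, h1⟩, ⟨a2, h2⟩, ⟨b1, h3⟩, ⟨b2, h4⟩⟩ := hPw
  have cst : ∀ z y : ℤ, z = 2 ^ w * y → (z : ZMod (2 ^ m)) = ((2 ^ w : ℕ) : ZMod (2 ^ m)) * y := by
    intro z y h; rw [h]; push_cast; ring
  rcases eq_or_lt_of_le hwm with heq | hlt
  · have z0 : ((2 ^ w : ℕ) : ZMod (2 ^ m)) = 0 := by rw [heq]; exact ZMod.natCast_self _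
    have := core1 (2 ^ m) (2 ^ w) (2 ^ (m - w)) L Λ hM hΛ hL a b (1, 0) (0, 0) (0, 1) ha1 ha2 hb1 hb2
      (by rw [cst _ _ h1, z0]; simp) (by rw [cst _ _ h2, z0]; simp)
      (by rw [cst _ _ h3, z0]; simp) (by rw [cst _ _ h4, z0]; simp) (by simp) u3 hu3
    simpa using this
  · have hn : ¬ P (w + 1) := Nat.findGreatest_is_greatest (Nat.lt_succ_self _) hlt
    have key : ∀ z y : ℤ, z = 2 ^ w * y → (2 : ℤ) ∣ y → (2 : ℤ) ^ (w + 1) ∣ z := by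
      intro z y h hy; rw [h, pow_succ]; exact mul_dvd_mul_left _ hy
    by_cases o1 : (2 : ℤ) ∣ a1
    · by_cases o2 : (2 : ℤ) ∣ a2
      · have swap : ∀ e : ℤ × ℤ, (b1 : ZMod (2 ^ m)) * e.2 - b2 * e.1 = 1 →
            ((coreSet (2 ^ m) L a b u3).card : ℝ) ≤
            200 * 2 ^ w * (2 * (2 ^ m : ℕ) * L : ℝ) ^ 2 * (1 + Real.log (4 * (2 ^ m : ℕ) * L)) +
            if det a b = 0 then 36 * (2 * (2 ^ m : ℕ) * L : ℝ) ^ 2 * Λ ^ 2 / (2 ^ m : ℕ) else 0 := by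
          intro e he
          have := core1 (2 ^ m) (2 ^ w) (2 ^ (m - w)) L Λ hM hΛ hL b a (b1, b2) (a1, a2) e hb1 hb2 ha1 ha2
            (cst _ _ h3) (cst _ _ h4) (cst _ _ h1) (cst _ _ h2) he u3 hu3
          have hs : ((coreSet (2 ^ m) L a b u3).card : ℝ) ≤ (coreSet (2 ^ m) L b a u3).card := by
            exact_mod_cast card_coreSet_swap (2 ^ m) L a b u3
          have hd : (det b a = 0) = (det a b = 0) := by
            simp only [det, eq_iff_iff]; constructor <;> intro h <;> linarith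
          simp only [hd] at this
          refine hs.trans ?_
          simpa using this
        by_cases o3 : (2 : ℤ) ∣ b1
        · by_cases o4 : (2 : ℤ) ∣ b2
          · exact absurd ⟨key _ _ h1 o1, key _ _ h2 o2, key _ _ h3 o3, key _ _ h4 o4⟩ hn
          · obtain ⟨e, he⟩ := odd_unit m b2 o4
            exact swap (-e, 0) (by simpa using he)
        · obtain ⟨e, he⟩ := odd_unit m b1 o3
          exact swap (0, e) (by simpa using he)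
      · obtain ⟨e, he⟩ := odd_unit m a2 o2
        have := core1 (2 ^ m) (2 ^ w) (2 ^ (m - w)) L Λ hM hΛ hL a b (a1, a2) (b1, b2) (-e, 0)
          ha1 ha2 hb1 hb2 (cst _ _ h1) (cst _ _ h2) (cst _ _ h3) (cst _ _ h4) (by simpa using he) u3 hu3
        simpa using this
    · obtain ⟨e, he⟩ := odd_unit m a1 o1
      have := core1 (2 ^ m) (2 ^ w) (2 ^ (m - w)) L Λ hM hΛ hL a b (a1, a2) (b1, b2) (0, e)
        ha1 ha2 hb1 hb2 (cst _ _ h1) (cst _ _ h2) (cst _ _ h3) (cst _ _ h4) (by simpa using he) u3 hu3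
      simpa using this

lemma count_dvd (Q d : ℕ) (hd : 0 < d) (c : ℤ) :
    (((Ico (0 : ℤ) Q).filter fun x => (d : ℤ) ∣ x + c).card : ℝ) ≤ Q / d + 1 := by
  have hdz : (0 : ℤ) < d := by exact_mod_cast hd
  have h1 : ((Ico (0 : ℤ) Q).filter fun x => (d : ℤ) ∣ x + c).card ≤ (Icc (0 : ℤ) (Q / d : ℕ)).card := by
    apply card_le_card_of_injOn (fun x : ℤ => x / (d : ℤ))
    · intro x hx
      simp only [coe_filter, mem_Ico, Set.mem_ofPred_eq, coe_Icc, Set.mem_Icc] at hx ⊢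
      refine ⟨Int.ediv_nonneg hx.1.1 hdz.le, ?_⟩
      push_cast
      exact Int.ediv_le_ediv hdz hx.1.2.le
    · intro x hx y hy hxy
      simp only [coe_filter, mem_Ico, Set.mem_ofPred_eq] at hx hy hxy
      have h : (d : ℤ) ∣ x - y := by
        have := hx.2.sub hy.2
        rwa [add_sub_add_right_eq_sub] at this
      have h2 : x % d = y % d := (Int.modEq_iff_dvd.mpr h).symm
      rw [← Int.mul_ediv_add_emod x d, ← Int.mul_ediv_add_emod y d, hxy, h2]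
  have h2 : (Icc (0 : ℤ) (Q / d : ℕ)).card = Q / d + 1 := by
    generalize Q / d = k
    rw [Int.card_Icc]; omega
  rw [h2] at h1
  calc _ ≤ ((Q / d + 1 : ℕ) : ℝ) := by exact_mod_cast h1
    _ ≤ _ := by push_cast; gcongr; exact Nat.cast_div_le

lemma count_dvd4 (Q d : ℕ) (hd : 0 < d) (ca cb : ℤ × ℤ) :
    ((((sq Q) ×ˢ (sq Q)).filter fun r => (d : ℤ) ∣ (r.1 + ca).1 ∧ (d : ℤ) ∣ (r.1 + ca).2 ∧
      (d : ℤ) ∣ (r.2 + cb).1 ∧ (d : ℤ) ∣ (r.2 + cb).2).card : ℝ) ≤ (Q / d + 1) ^ 4 := by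
  have : (((sq Q) ×ˢ (sq Q)).filter fun r => (d : ℤ) ∣ (r.1 + ca).1 ∧ (d : ℤ) ∣ (r.1 + ca).2 ∧
      (d : ℤ) ∣ (r.2 + cb).1 ∧ (d : ℤ) ∣ (r.2 + cb).2) =
      (((Ico (0 : ℤ) Q).filter fun x => (d : ℤ) ∣ x + ca.1) ×ˢ ((Ico (0 : ℤ) Q).filter fun x => (d : ℤ) ∣ x + ca.2)) ×ˢ
      (((Ico (0 : ℤ) Q).filter fun x => (d : ℤ) ∣ x + cb.1) ×ˢ ((Ico (0 : ℤ) Q).filter fun x => (d : ℤ) ∣ x + cb.2)) := by
    ext r
    simp only [sq, mem_filter, mem_product, Prod.fst_add, Prod.snd_add]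
    tauto
  rw [this]
  simp only [card_product]
  push_cast
  have h1 := count_dvd Q d hd ca.1
  have h2 := count_dvd Q d hd ca.2
  have h3 := count_dvd Q d hd cb.1
  have h4 := count_dvd Q d hd cb.2
  calc _ ≤ ((Q / d + 1 : ℝ) * (Q / d + 1)) * ((Q / d + 1) * (Q / d + 1)) := by gcongr
    _ = _ := by ring

lemma count_det0 (Q : ℕ) (hQ : 0 < Q) (ca cb : ℤ × ℤ) :
    (((sq Q) ×ˢ (sq Q)).filter fun r => det (r.1 + ca) (r.2 + cb) = 0).card ≤ 2 * Q ^ 3 := by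
  have hsub : (((sq Q) ×ˢ (sq Q)).filter fun r => det (r.1 + ca) (r.2 + cb) = 0) ⊆
      (sq Q ×ˢ {-cb}) ∪
      (((sq Q) ×ˢ (sq Q)).filter fun r => det (r.1 + ca) (r.2 + cb) = 0 ∧ r.2 + cb ≠ 0) := by
    intro r hr
    simp only [mem_filter, mem_product, mem_union, mem_singleton] at hr ⊢
    by_cases h : r.2 + cb = 0
    · left; exact ⟨hr.1.1, eq_neg_of_add_eq_zero_left h⟩
    · right; exact ⟨hr.1, hr.2, h⟩
  have h2 : (((sq Q) ×ˢ (sq Q)).filter fun r => det (r.1 + ca) (r.2 + cb) = 0 ∧ r.2 + cb ≠ 0).card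
      ≤ (sq Q ×ˢ Ico (0 : ℤ) Q).card := by
    apply card_le_card_of_injOn (fun r => (r.2, if (r.2 + cb).1 = 0 then r.1.2 else r.1.1))
    · intro r hr
      simp only [coe_filter, mem_product, Set.mem_ofPred_eq, coe_product, Set.mem_prod, mem_coe,
        mem_Ico] at hr ⊢
      refine ⟨hr.1.2, ?_⟩
      have := mem_sq.mp hr.1.1
      split_ifs
      · exact this.2
      · exact this.1
    · intro r hr s hs h
      simp only [coe_filter, mem_product, Set.mem_ofPred_eq, Prod.mk.injEq] at hr hs h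
      obtain ⟨h1, h2⟩ := h
      have hr2 := hr.2.1
      have hs2 := hs.2.1
      rw [← h1] at h2 hs2
      simp only [det, Prod.fst_add, Prod.snd_add] at hr2 hs2
      refine Prod.ext ?_ h1
      split_ifs at h2 with h0
      · have hne : (r.2 + cb).2 ≠ 0 := fun h' => hr.2.2 (Prod.ext h0 h')
        simp only [Prod.fst_add, Prod.snd_add] at h0 hne
        refine Prod.ext ?_ h2
        apply mul_right_cancel₀ hne
        rw [h0] at hr2 hs2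
        linear_combination hr2 - hs2
      · simp only [Prod.fst_add] at h0
        refine Prod.ext h2 ?_
        apply mul_right_cancel₀ h0
        rw [h2] at hr2
        linear_combination hs2 - hr2
  refine (card_le_card hsub).trans ((card_union_le _ _).trans ?_)
  rw [card_product, card_singleton, card_sq]
  rw [card_product, card_sq, Int.card_Ico] at h2
  simp only [sub_zero, Int.toNat_natCast] at h2
  have : Q ^ 2 ≤ Q ^ 2 * Q := Nat.le_mul_of_pos_right _ hQ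
  calc _ ≤ Q ^ 2 * Q + Q ^ 2 * Q := by omega
    _ = _ := by ring

lemma geo_bound (Q m : ℕ) (hQ : 2 ^ m ≤ Q ^ 4) :
    ∑ k ∈ range (m + 1), (2 : ℝ) ^ k * ((Q : ℝ) / (2 ^ k : ℕ) + 1) ^ 4 ≤ 32 * (Q : ℝ) ^ 4 := by
  have h1 : ∀ k : ℕ, (2 : ℝ) ^ k * ((Q : ℝ) / (2 ^ k : ℕ) + 1) ^ 4 ≤
      8 * (Q : ℝ) ^ 4 * (1 / 2) ^ k + 8 * 2 ^ k := by
    intro k
    push_cast
    set y : ℝ := 2 ^ k with hy
    have hy1 : 1 ≤ y := one_le_pow₀ (by norm_num)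
    have hy0 : 0 < y := by linarith
    have e : ((1 : ℝ) / 2) ^ k = 1 / y := by rw [hy, one_div, inv_pow, one_div]
    rw [e]
    set x : ℝ := Q / y with hx
    have hx0 : 0 ≤ x := by positivity
    have hQx : (Q : ℝ) = x * y := by rw [hx]; field_simp
    have h8 : (x + 1) ^ 4 ≤ 8 * (x ^ 4 + 1) := by nlinarith [sq_nonneg (x ^ 2 - 1), sq_nonneg (x - 1), sq_nonneg (x + 1), mul_nonneg (sq_nonneg (x - 1)) (sq_nonneg (x + 1)), mul_nonneg (sq_nonneg (x - 1)) (sq_nonneg x), mul_nonneg (sq_nonneg (x - 1)) hx0]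
    have h9 : y * x ^ 4 ≤ (Q : ℝ) ^ 4 * (1 / y) := by
      rw [hQx]
      have : (x * y) ^ 4 * (1 / y) = y * x ^ 4 * y ^ 2 := by field_simp
      rw [this]
      exact le_mul_of_one_le_right (by positivity) (one_le_pow₀ hy1)
    nlinarith [mul_le_mul_of_nonneg_left h8 hy0.le]
  refine (sum_le_sum fun k _ => h1 k).trans ?_
  rw [sum_add_distrib, ← mul_sum, ← mul_sum]
  have g1 := sum_geometric_two_le (m + 1)
  have g2 : ∑ k ∈ range (m + 1), (2 : ℝ) ^ k ≤ 2 * 2 ^ m := by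
    rw [geom_sum_eq (by norm_num)]; rw [pow_succ]; norm_num; linarith
  have g3 : (2 : ℝ) ^ m ≤ (Q : ℝ) ^ 4 := by exact_mod_cast hQ
  have : (0 : ℝ) ≤ 8 * (Q : ℝ) ^ 4 := by positivity
  nlinarith [mul_le_mul_of_nonneg_left g1 this]

theorem core_sum (m L Λ Q : ℕ) (hΛ : 0 < Λ) (hL : 2 * Λ ≤ L) (hQ0 : 0 < Q) (hQ : 2 ^ m ≤ Q ^ 4)
    (hΛQ : Λ ^ 2 ≤ Q * 2 ^ m) (ca cb : ℤ × ℤ)
    (ha : ∀ r ∈ sq Q, |(r + ca).1| ≤ Λ ∧ |(r + ca).2| ≤ Λ)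
    (hb : ∀ r ∈ sq Q, |(r + cb).1| ≤ Λ ∧ |(r + cb).2| ≤ Λ)
    (u3 : ℤ × ℤ) (hu3 : u3 ∈ sq L) :
    ∑ r ∈ sq Q ×ˢ sq Q, ((coreSet (2 ^ m) L (r.1 + ca) (r.2 + cb) u3).card : ℝ) ≤
      6500 * (Q : ℝ) ^ 4 * (2 * (2 ^ m : ℕ) * L : ℝ) ^ 2 * (1 + Real.log (4 * (2 ^ m : ℕ) * L)) := by
  classical
  set A : ℝ := (2 * (2 ^ m : ℕ) * L : ℝ) ^ 2 with hA
  set Lg : ℝ := 1 + Real.log (4 * (2 ^ m : ℕ) * L) with hLg
  have hA0 : 0 ≤ A := by positivity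
  have hL0 : 0 < L := by omega
  have hLg1 : 1 ≤ Lg := by
    have : 0 ≤ Real.log (4 * (2 ^ m : ℕ) * L) := by
      apply Real.log_nonneg
      have h1 : (1 : ℝ) ≤ (2 ^ m : ℕ) := by exact_mod_cast Nat.one_le_two_pow
      have h2 : (1 : ℝ) ≤ L := by exact_mod_cast hL0
      nlinarith
    linarith
  have step : ∀ r ∈ sq Q ×ˢ sq Q, ((coreSet (2 ^ m) L (r.1 + ca) (r.2 + cb) u3).card : ℝ) ≤
      200 * A * Lg * (∑ k ∈ range (m + 1),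
        if ((2 ^ k : ℕ) : ℤ) ∣ (r.1 + ca).1 ∧ ((2 ^ k : ℕ) : ℤ) ∣ (r.1 + ca).2 ∧
          ((2 ^ k : ℕ) : ℤ) ∣ (r.2 + cb).1 ∧ ((2 ^ k : ℕ) : ℤ) ∣ (r.2 + cb).2 then (2 : ℝ) ^ k else 0) +
      if det (r.1 + ca) (r.2 + cb) = 0 then 36 * A * Λ ^ 2 / (2 ^ m : ℕ) else 0 := by
    intro r hr
    rw [mem_product] at hr
    obtain ⟨w, hw, hdiv, hle⟩ := core2 m L Λ hΛ hL (r.1 + ca) (r.2 + cb) (ha _ hr.1).1 (ha _ hr.1).2
      (hb _ hr.2).1 (hb _ hr.2).2 u3 hu3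
    refine hle.trans (add_le_add ?_ le_rfl)
    have : (2 : ℝ) ^ w ≤ ∑ k ∈ range (m + 1),
        if ((2 ^ k : ℕ) : ℤ) ∣ (r.1 + ca).1 ∧ ((2 ^ k : ℕ) : ℤ) ∣ (r.1 + ca).2 ∧
          ((2 ^ k : ℕ) : ℤ) ∣ (r.2 + cb).1 ∧ ((2 ^ k : ℕ) : ℤ) ∣ (r.2 + cb).2 then (2 : ℝ) ^ k else 0 := by
      refine le_trans ?_ (single_le_sum (a := w) (fun k _ => ?_) (mem_range.mpr (by omega)))
      · rw [if_pos (by push_cast; exact hdiv)]
      · split_ifs <;> positivity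
    calc 200 * 2 ^ w * A * Lg = 200 * A * Lg * 2 ^ w := by ring
      _ ≤ _ := by gcongr
  refine (sum_le_sum step).trans ?_
  rw [sum_add_distrib, ← mul_sum, sum_comm]
  have s1 : ∑ k ∈ range (m + 1), ∑ r ∈ sq Q ×ˢ sq Q,
      (if ((2 ^ k : ℕ) : ℤ) ∣ (r.1 + ca).1 ∧ ((2 ^ k : ℕ) : ℤ) ∣ (r.1 + ca).2 ∧
          ((2 ^ k : ℕ) : ℤ) ∣ (r.2 + cb).1 ∧ ((2 ^ k : ℕ) : ℤ) ∣ (r.2 + cb).2 then (2 : ℝ) ^ k else 0)
      ≤ 32 * (Q : ℝ) ^ 4 := by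
    refine le_trans (sum_le_sum fun k _ => ?_) (geo_bound Q m hQ)
    rw [← sum_filter, sum_const, nsmul_eq_mul, mul_comm]
    gcongr
    exact count_dvd4 Q (2 ^ k) (by positivity) ca cb
  have s2 : ∑ r ∈ sq Q ×ˢ sq Q,
      (if det (r.1 + ca) (r.2 + cb) = 0 then 36 * A * Λ ^ 2 / (2 ^ m : ℕ) else 0) ≤ 72 * A * (Q : ℝ) ^ 4 := by
    rw [← sum_filter, sum_const, nsmul_eq_mul]
    have c1 : ((((sq Q) ×ˢ (sq Q)).filter fun r => det (r.1 + ca) (r.2 + cb) = 0).card : ℝ)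
        ≤ 2 * (Q : ℝ) ^ 3 := by exact_mod_cast count_det0 Q hQ0 ca cb
    have c2 : (36 * A * Λ ^ 2 / (2 ^ m : ℕ) : ℝ) ≤ 36 * A * Q := by
      rw [div_le_iff₀ (by positivity)]
      have : (Λ : ℝ) ^ 2 ≤ Q * (2 ^ m : ℕ) := by exact_mod_cast hΛQ
      calc 36 * A * Λ ^ 2 ≤ 36 * A * (Q * (2 ^ m : ℕ)) := by gcongr
        _ = _ := by ring
    calc _ ≤ (2 * (Q : ℝ) ^ 3) * (36 * A * Q) := by gcongr
      _ = _ := by ring
  have hQ4 : (0 : ℝ) ≤ A * (Q : ℝ) ^ 4 := by positivity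
  calc _ ≤ 200 * A * Lg * (32 * (Q : ℝ) ^ 4) + 72 * A * (Q : ℝ) ^ 4 := by gcongr
    _ ≤ _ := by nlinarith [mul_le_mul_of_nonneg_left hLg1 hQ4]

end Crest.Agent.Heil
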